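import Vale.Agent.P267.H815.Hol

/-!
# P267, D4: effective divisors by germs of local equations (helper815)
-/

open scoped Manifold ContDiff Topology
open Set Filter Metric
open Vale.Agent.P272.K

set_option linter.unusedSectionVars false

noncomputable section

namespace Vale.Agent.P267.H815

variable {X : Type*} [TopologicalSpace X] [ChartedSpace (Cm 2) X]

/-- unit germs -/
def UnitN (u : X → ℂ) (x : X) : Prop := HolN u x ∧ u x ≠ 0

/-- `f` and `g` define the same divisor near `x` -/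
def Assoc (f g : X → ℂ) (x : X) : Prop := ∃ u, UnitN u x ∧ ∀ᶠ z in 𝓝 x, f z = u z * g z

theorem UnitN.ne {u : X → ℂ} {x : X} (h : UnitN u x) : ∀ᶠ z in 𝓝 x, u z ≠ 0 :=
  h.1.continuousAt.eventually_ne h.2

theorem UnitN.eventually {u : X → ℂ} {x : X} (h : UnitN u x) : ∀ᶠ z in 𝓝 x, UnitN u z := by
  filter_upwards [h.1.eventually, h.ne] with z h1 h2 using ⟨h1, h2⟩

theorem unitN_one (x : X) : UnitN (fun _ => 1) x := ⟨holN_const 1 x, one_ne_zero⟩

theorem Assoc.refl (f : X → ℂ) (x : X) : Assoc f f x :=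
  ⟨fun _ => 1, unitN_one x, Eventually.of_forall fun z => (one_mul _).symm⟩

theorem Assoc.eventually {f g : X → ℂ} {x : X} (h : Assoc f g x) : ∀ᶠ y in 𝓝 x, Assoc f g y := by
  obtain ⟨u, hu, he⟩ := h
  filter_upwards [hu.eventually, eventually_eventually_nhds.2 he] with y h1 h2 using ⟨u, h1, h2⟩

theorem Assoc.zero_iff {f g : X → ℂ} {x : X} (h : Assoc f g x) : f x = 0 ↔ g x = 0 := by
  obtain ⟨u, hu, he⟩ := h
  rw [he.self_of_nhds, mul_eq_zero]
  simp [hu.2]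

theorem Assoc.of_eventuallyEq {f g : X → ℂ} {x : X} (h : f =ᶠ[𝓝 x] g) : Assoc f g x :=
  ⟨fun _ => 1, unitN_one x, by filter_upwards [h] with z hz; rw [hz, one_mul]⟩

theorem Assoc.holN [IsManifold 𝓘(ℂ, Cm 2) ω X] {f g : X → ℂ} {x : X} (h : Assoc f g x)
    (hg : HolN g x) : HolN f x := by
  obtain ⟨u, hu, he⟩ := h
  exact (hu.1.mul hg).congr he

theorem Assoc.frequently {f g : X → ℂ} {x : X} (h : Assoc f g x) (hg : ∃ᶠ y in 𝓝 x, g y ≠ 0) :
    ∃ᶠ y in 𝓝 x, f y ≠ 0 := by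
  obtain ⟨u, hu, he⟩ := h
  refine (hg.and_eventually (hu.ne.and he)).mono ?_
  rintro y ⟨h1, h2, h3⟩
  rw [h3]
  exact mul_ne_zero h2 h1

section

variable [IsManifold 𝓘(ℂ, Cm 2) ω X]

theorem UnitN.mul {u v : X → ℂ} {x : X} (hu : UnitN u x) (hv : UnitN v x) :
    UnitN (fun z => u z * v z) x := ⟨hu.1.mul hv.1, mul_ne_zero hu.2 hv.2⟩

theorem UnitN.inv {u : X → ℂ} {x : X} (hu : UnitN u x) :
    UnitN (fun z => (u z)⁻¹) x := ⟨hu.1.inv hu.2, inv_ne_zero hu.2⟩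

theorem UnitN.div {u v : X → ℂ} {x : X} (hu : UnitN u x) (hv : UnitN v x) :
    UnitN (fun z => u z / v z) x := ⟨hu.1.div hv.1 hv.2, div_ne_zero hu.2 hv.2⟩

theorem Assoc.symm {f g : X → ℂ} {x : X} (h : Assoc f g x) : Assoc g f x := by
  obtain ⟨u, hu, he⟩ := h
  refine ⟨fun z => (u z)⁻¹, hu.inv, ?_⟩
  filter_upwards [he, hu.ne] with z h1 h2
  rw [h1]
  field_simp

theorem Assoc.trans {f g h : X → ℂ} {x : X} (h1 : Assoc f g x) (h2 : Assoc g h x) :
    Assoc f h x := by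
  obtain ⟨u, hu, he⟩ := h1
  obtain ⟨v, hv, he'⟩ := h2
  refine ⟨fun z => u z * v z, hu.mul hv, ?_⟩
  filter_upwards [he, he'] with z h1 h2
  rw [h1, h2, mul_assoc]

theorem Assoc.mul {f g f' g' : X → ℂ} {x : X} (h1 : Assoc f g x) (h2 : Assoc f' g' x) :
    Assoc (fun z => f z * f' z) (fun z => g z * g' z) x := by
  obtain ⟨u, hu, he⟩ := h1
  obtain ⟨v, hv, he'⟩ := h2
  refine ⟨fun z => u z * v z, hu.mul hv, ?_⟩
  filter_upwards [he, he'] with z h1 h2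
  rw [h1, h2]
  ring

theorem Assoc.differential {f g : X → ℂ} {x : X} (h : Assoc f g x) (hg : HolN g x) (h0 : g x = 0) :
    mfderiv 𝓘(ℂ, Cm 2) 𝓘(ℂ) f x ≠ 0 ↔ mfderiv 𝓘(ℂ, Cm 2) 𝓘(ℂ) g x ≠ 0 := by
  have hf := h.holN hg
  obtain ⟨u, hu, he⟩ := h
  have hx := mem_chart_source (Cm 2) x
  rw [mfderiv_ne_zero_iff x hx hf.self, mfderiv_ne_zero_iff x hx hg.self]
  set φ := chartAt (Cm 2) x
  have h1 : f ∘ φ.symm =ᶠ[𝓝 (φ x)] fun w => (u ∘ φ.symm) w * (g ∘ φ.symm) w :=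
    (eventually_chart_iff x hx (p := fun z => f z = u z * g z)).2 he
  have hu' := ((holN_iff x hx).1 hu.1).differentiableAt
  have hg' := ((holN_iff x hx).1 hg).differentiableAt
  have h2 : fderiv ℂ (f ∘ φ.symm) (φ x) = u x • fderiv ℂ (g ∘ φ.symm) (φ x) := by
    rw [h1.fderiv_eq, fderiv_fun_mul hu' hg']
    have h3 : (g ∘ φ.symm) (φ x) = 0 := by
      show g (φ.symm (φ x)) = 0
      rw [φ.left_inv hx, h0]
    have h4 : (u ∘ φ.symm) (φ x) = u x := by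
      show u (φ.symm (φ x)) = u x
      rw [φ.left_inv hx]
    rw [h3, h4]
    ext v
    simp [φ]
  rw [h2, Ne, Ne, not_iff_not]
  constructor
  · intro h
    ext v
    have h5 := congrArg (fun T : Cm 2 →L[ℂ] ℂ => T v) h
    have h6 : u x * (fderiv ℂ (g ∘ φ.symm) (φ x)) v = 0 := by simpa using h5
    simpa using (mul_eq_zero.1 h6).resolve_left hu.2
  · intro h
    rw [h]
    ext v
    simp

/-- two holomorphic factors coincide -/
theorem eq_of_mul_eq {f u v : X → ℂ} {x : X} (hu : ContinuousAt u x) (hv : ContinuousAt v x)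
    (hf : ∃ᶠ y in 𝓝 x, f y ≠ 0) (h : ∀ᶠ z in 𝓝 x, u z * f z = v z * f z) : u x = v x := by
  by_contra hne
  have h1 : ∀ᶠ z in 𝓝 x, u z ≠ v z := by
    have := (hu.sub hv).eventually_ne (sub_ne_zero.2 hne)
    filter_upwards [this] with z hz using sub_ne_zero.1 hz
  obtain ⟨y, hy, hy1, hy2⟩ := (hf.and_eventually (h1.and h)).exists
  exact hy1 (mul_right_cancel₀ hy hy2)

/-- gluing local equations to a divisor -/
theorem exists_effDiv (g : X → X → ℂ) (h1 : ∀ x, HolN (g x) x) (h2 : ∀ x, ∃ᶠ y in 𝓝 x, g x y ≠ 0)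
    (h3 : ∀ x, ∀ᶠ y in 𝓝 x, Assoc (g x) (g y) y) : ∃ D : EffDiv X, D.f = g := by
  have h4 : ∀ x, ∃ U : Set X, IsOpen U ∧ x ∈ U ∧ (∀ y ∈ U, HolN (g x) y) ∧
      ∀ y ∈ U, Assoc (g x) (g y) y := by
    intro x
    obtain ⟨U, hU, hUo, hxU⟩ := _root_.eventually_nhds_iff.1 ((h1 x).eventually.and (h3 x))
    exact ⟨U, hUo, hxU, fun y hy => (hU y hy).1, fun y hy => (hU y hy).2⟩
  choose U hUo hxU hU1 hU2 using h4
  refine ⟨⟨U, g, hUo, hxU, fun x y hy => (hU1 x y hy).self.mdifferentiableWithinAt,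
    fun x y hy => (hU2 x y hy).frequently (h2 y), ?_⟩, rfl⟩
  intro x x'
  have key : ∀ y : X, ∃ u : X → ℂ, y ∈ U x ∩ U x' → UnitN u y ∧
      ∀ᶠ z in 𝓝 y, g x z = u z * g x' z := by
    intro y
    by_cases hy : y ∈ U x ∩ U x'
    · obtain ⟨u, hu⟩ := (hU2 x y hy.1).trans (hU2 x' y hy.2).symm
      exact ⟨u, fun _ => hu⟩
    · exact ⟨fun _ => 1, fun h => absurd h hy⟩
  choose u hu using key
  have hloc : ∀ z ∈ U x ∩ U x', (fun y => u y y) =ᶠ[𝓝 z] u z := by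
    intro z hz
    filter_upwards [((hUo x).inter (hUo x')).mem_nhds hz, (hu z hz).1.eventually,
      eventually_eventually_nhds.2 (hu z hz).2] with y hy hy1 hy2
    have hfr : ∃ᶠ w in 𝓝 y, g x' w ≠ 0 := (hU2 x' y hy.2).frequently (h2 y)
    refine eq_of_mul_eq (hu y hy).1.1.continuousAt hy1.1.continuousAt hfr ?_
    filter_upwards [(hu y hy).2, hy2] with w hw hw'
    rw [← hw, ← hw']
  refine ⟨fun y => u y y, ?_, ?_⟩
  · intro z hz
    exact (((hu z hz).1.1.congr (hloc z hz)).self).mdifferentiableWithinAt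
  · intro y hy
    exact ⟨(hu y hy).1.2, (hu y hy).2.self_of_nhds⟩

end

/-! ### local equations of a divisor -/

section eqns

variable (D : EffDiv X)

theorem holN_f (x : X) {y : X} (hy : y ∈ D.U x) : HolN (D.f x) y :=
  holN_of_on (D.isOpen x) (D.holo x) hy

theorem mem_nhds (x : X) : D.U x ∈ 𝓝 x := (D.isOpen x).mem_nhds (D.mem x)

theorem assoc_f {x y z : X} (hx : z ∈ D.U x) (hy : z ∈ D.U y) : Assoc (D.f x) (D.f y) z := by
  obtain ⟨g, hg1, hg2⟩ := D.change x y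
  have ho := (D.isOpen x).inter (D.isOpen y)
  refine ⟨g, ⟨holN_of_on ho hg1 ⟨hx, hy⟩, (hg2 z ⟨hx, hy⟩).1⟩, ?_⟩
  filter_upwards [ho.mem_nhds ⟨hx, hy⟩] with w hw using (hg2 w hw).2

theorem zero_iff {x y z : X} (hx : z ∈ D.U x) (hy : z ∈ D.U y) : D.f x z = 0 ↔ D.f y z = 0 :=
  (assoc_f D hx hy).zero_iff

theorem mem_supp_iff {x y : X} (hy : y ∈ D.U x) : y ∈ D.supp ↔ D.f x y = 0 := by
  show D.f y y = 0 ↔ D.f x y = 0
  exact zero_iff D (D.mem y) hy

theorem isClosed_supp : IsClosed D.supp := by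
  rw [← isOpen_compl_iff, isOpen_iff_mem_nhds]
  intro x hx
  have h1 : D.f x x ≠ 0 := fun h => hx h
  filter_upwards [mem_nhds D x, (holN_f D x (D.mem x)).continuousAt.eventually_ne h1] with y hy hy'
  intro h
  exact hy' ((mem_supp_iff D hy).1 h)

/-- the points of the support where the differential of the local equation vanishes -/
def Sing : Set X := {x | x ∈ D.supp ∧ mfderiv 𝓘(ℂ, Cm 2) 𝓘(ℂ) (D.f x) x = 0}

/-- `D = D₁ + D₂` -/
def IsSum (D D₁ D₂ : EffDiv X) : Prop :=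
  ∀ x, Assoc (D.f x) (fun z => D₁.f x z * D₂.f x z) x

/-- `D = D'` as divisors -/
def Same (D D' : EffDiv X) : Prop := ∀ x, Assoc (D.f x) (D'.f x) x

/-- `D` is irreducible -/
def Irred (D : EffDiv X) : Prop :=
  D.supp.Nonempty ∧ ∀ D₁ D₂ : EffDiv X, IsSum D D₁ D₂ → D₁.supp = ∅ ∨ D₂.supp = ∅

end eqns

section more

variable [IsManifold 𝓘(ℂ, Cm 2) ω X]

theorem mem_sing_iff (D : EffDiv X) {x y : X} (hy : y ∈ D.U x) :
    y ∈ Sing D ↔ D.f x y = 0 ∧ mfderiv 𝓘(ℂ, Cm 2) 𝓘(ℂ) (D.f x) y = 0 := by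
  have h1 := assoc_f D hy (D.mem y)
  constructor
  · rintro ⟨h2, h3⟩
    have h4 : D.f y y = 0 := h2
    refine ⟨(mem_supp_iff D hy).1 h2, ?_⟩
    by_contra hne
    exact ((h1.differential (holN_f D y (D.mem y)) h4).1 hne) h3
  · rintro ⟨h2, h3⟩
    have h4 : y ∈ D.supp := (mem_supp_iff D hy).2 h2
    refine ⟨h4, ?_⟩
    by_contra hne
    exact ((h1.differential (holN_f D y (D.mem y)) h4).2 hne) h3

theorem IsSum.supp {D D₁ D₂ : EffDiv X} (h : IsSum D D₁ D₂) : D.supp = D₁.supp ∪ D₂.supp := by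
  ext x
  have := (h x).zero_iff
  simp only [mul_eq_zero] at this
  exact this

theorem Same.supp {D D' : EffDiv X} (h : Same D D') : D.supp = D'.supp := by
  ext x
  exact (h x).zero_iff

theorem IsSum.same_left {D D₁ D₂ : EffDiv X} (h : IsSum D D₁ D₂) (h2 : D₂.supp = ∅) :
    Same D D₁ := by
  intro x
  refine (h x).trans ?_
  refine ⟨D₂.f x, ⟨holN_f D₂ x (D₂.mem x), fun h0 => ?_⟩, Eventually.of_forall fun z => mul_comm _ _⟩
  have : x ∈ D₂.supp := h0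
  rw [h2] at this
  exact this

theorem IsSum.comm {D D₁ D₂ : EffDiv X} (h : IsSum D D₁ D₂) : IsSum D D₂ D₁ := by
  intro x
  refine (h x).trans (Assoc.of_eventuallyEq (Eventually.of_forall fun z => mul_comm _ _))

/-- sums exist -/
theorem exists_sum (D₁ D₂ : EffDiv X) : ∃ D : EffDiv X, IsSum D D₁ D₂ := by
  obtain ⟨D, hD⟩ := exists_effDiv (fun x z => D₁.f x z * D₂.f x z)
    (fun x => (holN_f D₁ x (D₁.mem x)).mul (holN_f D₂ x (D₂.mem x))) (fun x => by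
      intro hcon
      -- both factors are nonzero on dense sets
      have h1 : HolN (D₁.f x) x := holN_f D₁ x (D₁.mem x)
      have h2 : HolN (D₂.f x) x := holN_f D₂ x (D₂.mem x)
      have h3 : ∀ᶠ z in 𝓝 x, D₁.f x z * D₂.f x z = 0 := by
        filter_upwards [hcon] with z hz using not_not.1 hz
      obtain ⟨U, hU, hUo, hxU⟩ := _root_.eventually_nhds_iff.1 ((h3.and (mem_nhds D₁ x)).and
        (mem_nhds D₂ x))
      obtain ⟨y, hy1, hyU⟩ := ((D₁.ne x x (D₁.mem x)).and_eventually (hUo.mem_nhds hxU)).exists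
      have h4 : ∀ᶠ z in 𝓝 y, D₁.f x z ≠ 0 :=
        (holN_f D₁ x (hU y hyU).1.2).continuousAt.eventually_ne hy1
      obtain ⟨z, hz1, hz2, hz3⟩ := ((D₂.ne x y (hU y hyU).2).and_eventually
        (h4.and (hUo.mem_nhds hyU))).exists
      exact mul_ne_zero hz2 hz1 (hU z hz3).1.1) (fun x => by
      filter_upwards [mem_nhds D₁ x, mem_nhds D₂ x] with y h1 h2
      exact (assoc_f D₁ h1 (D₁.mem y)).mul (assoc_f D₂ h2 (D₂.mem y)))
  refine ⟨D, fun x => ?_⟩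
  rw [hD]
  exact Assoc.refl _ _

end more

end Vale.Agent.P267.H815
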