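import Vale.Agent.P267.H815.Nef
import Vale.Agent.P267.H456.Assembly
import Vale.Agent.P267.H469.Lit
import Vale.Agent.P267.H158.Herm

/-!
# P267, package NEF-GLUE (helper815): `Asm.NefThm` from the Riemann-Roch block
-/

open scoped Manifold ContDiff

noncomputable section

namespace Vale.Agent.P267.H815

open Vale.Agent.P267.FL Vale.Agent.P267.H682 Vale.Agent.P272.K

/-- negative definiteness for surfaces with `b₁ = 1` and `p_g = 0` -/
theorem negDef_of {X : Type} [TopologicalSpace X] [T2Space X] [CompactSpace X] [ConnectedSpace X]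
    [ChartedSpace C2 X] [IsManifold 𝓘(ℂ, C2) ω X] (hb : BettiSucc X 0 1) (hF : RR.FiniteStmt X)
    (hS : RR.SerreStmt X) (hpg : PgZero X) : NegDef X := by
  obtain ⟨h, hh⟩ := H158.exists_isHerm X
  exact fun F h1 h2 h3 => H469.neg_lit hh hb (fun b hb => exists_dbar1_eq hF hS hpg hb) F h1 h2 h3

/-- **NEF.** -/
theorem nefThm (hRR : RR.RRBlock) : Asm.NefThm := by
  intro X _ _ _ _ _ _ n hX ι ι' _ _ _ _ L a LK ha hK s hs hs0
  obtain ⟨hF, hS, hR, -⟩ := hRR X
  have hpg : PgZero X := pgZero_of_kodaira hX.kod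
  exact nef hF hS hR hpg (negDef_of hX.b1 hF hS hpg) hX.min L a LK ha hK s hs hs0

end Vale.Agent.P267.H815
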