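import Vale.Agent.P267.H815.Pole
import Vale.Agent.P267.H331.Emb

/-!
# P267, D4: a compact irreducible curve `D` with `H¹(𝒪_D) = 0` is a smooth rational curve (helper815)
-/

open scoped Manifold ContDiff Topology ComplexConjugate
open Set Filter Metric
open Vale.Agent.P272.K

set_option linter.unusedSectionVars false

noncomputable section

namespace Vale.Agent.P267.H815

open FL (At0 At1 At2 Reg0 Reg1 Reg2 dbar0 dbar1 loc0 loc1 loc2 C2)

/-- `ℂ × ℂ` and `Fin 2 → ℂ` -/
def pairE : (ℂ × ℂ) ≃L[ℂ] (Fin 2 → ℂ) := (ContinuousLinearEquiv.finTwoArrow ℂ ℂ).symm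

theorem pairE_apply (z : ℂ × ℂ) : pairE z = ![z.1, z.2] := rfl

theorem pairE_symm_apply (w : Fin 2 → ℂ) : pairE.symm w = (w 0, w 1) := rfl

variable {X : Type*} [TopologicalSpace X] [ChartedSpace (Cm 2) X] [IsManifold 𝓘(ℂ, Cm 2) ω X]

theorem mdiffAt_iff' {V : Type*} [NormedAddCommGroup V] [NormedSpace ℂ V] {f : X → V} (x : X)
    {y : X} (hy : y ∈ (chartAt (Cm 2) x).source) :
    MDifferentiableAt 𝓘(ℂ, Cm 2) 𝓘(ℂ, V) f y ↔
      DifferentiableAt ℂ (f ∘ (chartAt (Cm 2) x).symm) (chartAt (Cm 2) x y) := by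
  have : IsManifold 𝓘(ℂ, Cm 2) 1 X := IsManifold.of_le (n := ω) le_top
  rw [mdifferentiableAt_iff_source_of_mem_source (x := x) (by simpa using hy)]
  simp only [modelWithCornersSelf_coe, range_id, mdifferentiableWithinAt_univ,
    mdifferentiableAt_iff_differentiableAt, mfld_simps]

/-- a regular chart (helper331) from adapted coordinates -/
theorem IsCoord.regChart {e : OpenPartialHomeomorph X (ℂ × ℂ)} {f : X → ℂ} {p : X}
    (h : IsCoord e f p) (h0 : f p = 0) {Z : Set X} (hZ : ∀ y ∈ e.source, (y ∈ Z ↔ f y = 0)) :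
    H331.RegChart Z p (e.trans pairE.toHomeomorph.toOpenPartialHomeomorph) := by
  have : IsManifold 𝓘(ℂ, Cm 2) 1 X := IsManifold.of_le (n := ω) le_top
  have hs : (e.trans pairE.toHomeomorph.toOpenPartialHomeomorph).source = e.source := by
    simp
  have hc : ∀ y, (e.trans pairE.toHomeomorph.toOpenPartialHomeomorph) y = pairE (e y) :=
    fun _ => rfl
  have hcs : ∀ w, (e.trans pairE.toHomeomorph.toOpenPartialHomeomorph).symm w =
    e.symm (pairE.symm w) := fun _ => rfl
  constructor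
  · rw [hs]
    exact h.mem
  · rw [hc, h.zero, h0, pairE_apply]
    funext i
    fin_cases i <;> rfl
  · intro x hx
    rw [hs] at hx
    rw [hZ x hx, hc, ← h.fst x hx]
    rfl
  · intro y hy
    rw [hs] at hy
    refine MDifferentiableAt.mdifferentiableWithinAt ?_
    rw [mdiffAt_iff' p (h.sub hy)]
    exact (pairE : (ℂ × ℂ) →L[ℂ] (Fin 2 → ℂ)).differentiableAt.comp _ (h.an y hy).differentiableAt
  · intro w hw
    have hw' : pairE.symm w ∈ e.target := by
      have := hw
      simp only [OpenPartialHomeomorph.trans_target, mem_inter_iff, mem_preimage] at this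
      exact this.2
    set y := e.symm (pairE.symm w) with hy
    have hys : y ∈ e.source := e.map_target hw'
    have hey : e y = pairE.symm w := e.right_inv hw'
    set φ := chartAt (Cm 2) p with hφ
    have hyφ : y ∈ φ.source := h.sub hys
    refine MDifferentiableAt.mdifferentiableWithinAt ?_
    have h1 : DifferentiableAt ℂ (fun v : Fin 2 → ℂ => φ (e.symm (pairE.symm v))) w := by
      have h2 := (h.an' y hys).differentiableAt
      rw [hey] at h2
      exact DifferentiableAt.comp (g := φ ∘ e.symm) (f := pairE.symm) w h2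
        (pairE.symm : (Fin 2 → ℂ) →L[ℂ] (ℂ × ℂ)).differentiableAt
    have h3 : MDifferentiableAt 𝓘(ℂ, Cm 2) 𝓘(ℂ, Cm 2) φ.symm (φ y) :=
      mdifferentiableAt_atlas_symm (chart_mem_atlas _ p) (φ.map_source hyφ)
    have h4 : MDifferentiableAt 𝓘(ℂ, Fin 2 → ℂ) 𝓘(ℂ, Cm 2)
        (fun v : Fin 2 → ℂ => φ.symm (φ (e.symm (pairE.symm v)))) w :=
      MDifferentiableAt.comp (g := φ.symm) w h3 h1.mdifferentiableAt
    refine h4.congr_of_eventuallyEq ?_
    have h5 : ∀ᶠ v in 𝓝 w, e.symm (pairE.symm v) ∈ φ.source := by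
      have h6 : ContinuousAt (fun v : Fin 2 → ℂ => e.symm (pairE.symm v)) w :=
        ContinuousAt.comp (g := e.symm) (e.continuousAt_symm hw')
          pairE.symm.continuous.continuousAt
      exact h6.eventually_mem (φ.open_source.mem_nhds hyφ)
    filter_upwards [h5] with v hv
    rw [hcs, φ.left_inv hv]

theorem IsCoord.dsc {e : OpenPartialHomeomorph X (ℂ × ℂ)} (t : ℂ) :
    H331.dsc (e.trans pairE.toHomeomorph.toOpenPartialHomeomorph) t = e.symm (0, t) := rfl

/-- the restriction of a holomorphic function to the disc -/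
theorem IsCoord.analytic_dsc {e : OpenPartialHomeomorph X (ℂ × ℂ)} {f : X → ℂ} {p : X}
    (h : IsCoord e f p) (h0 : f p = 0) {ψ : X → ℂ} (hψ : HolN ψ p) :
    AnalyticAt ℂ (fun t : ℂ => ψ (e.symm (0, t))) 0 := by
  have h1 := (h.hol p h.mem ψ).1 hψ
  rw [h.zero, h0] at h1
  exact AnalyticAt.comp (g := ψ ∘ e.symm) (f := fun t : ℂ => ((0 : ℂ), t)) h1
    (analyticAt_const.prod analyticAt_id)

theorem IsCoord.tendsto_dsc {e : OpenPartialHomeomorph X (ℂ × ℂ)} {f : X → ℂ} {p : X}
    (h : IsCoord e f p) (h0 : f p = 0) :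
    Tendsto (fun t : ℂ => e.symm (0, t)) (𝓝 0) (𝓝 p) := by
  have h1 := (e.continuousAt_symm (e.map_source h.mem)).tendsto
  rw [e.left_inv h.mem, h.zero, h0] at h1
  have h2 : Continuous fun t : ℂ => ((0 : ℂ), t) := by fun_prop
  exact h1.comp (h2.continuousAt (x := (0 : ℂ))).tendsto

theorem IsCoord.target_dsc {e : OpenPartialHomeomorph X (ℂ × ℂ)} {f : X → ℂ} {p : X}
    (h : IsCoord e f p) (h0 : f p = 0) : ∀ᶠ t in 𝓝 (0 : ℂ), ((0 : ℂ), t) ∈ e.target := by
  have h2 : Continuous fun t : ℂ => ((0 : ℂ), t) := by fun_prop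
  refine h2.continuousAt.eventually_mem (e.open_target.mem_nhds ?_)
  have := e.map_source h.mem
  rwa [h.zero, h0] at this

/-- adapted coordinates at the regular points of a divisor -/
theorem exists_isCoord (D : EffDiv X) {q : X} (hq : q ∈ D.supp \ Sing D) :
    ∃ e : OpenPartialHomeomorph X (ℂ × ℂ), IsCoord e (D.f q) q ∧ e.source ⊆ D.U q := by
  obtain ⟨e, e1, e2, e3, e4, e5, e6, e7, e8⟩ := exists_coordU (D.isOpen q) (D.mem q)
    (holN_f D q (D.mem q)) ((compl_sing_iff D).1 hq).2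
  exact ⟨e, ⟨e1, e2, e3, e4, e6, e7, e8⟩, e5⟩

theorem IsCoord.dsc_mem {D : EffDiv X} {e : OpenPartialHomeomorph X (ℂ × ℂ)} {q : X}
    (h : IsCoord e (D.f q) q) (h0 : D.f q q = 0) (hU : e.source ⊆ D.U q) :
    ∀ᶠ t in 𝓝 (0 : ℂ), e.symm (0, t) ∈ D.supp := by
  filter_upwards [h.target_dsc h0] with t ht
  have h1 := e.map_target ht
  rw [mem_supp_iff D (hU h1), ← h.fst _ h1, e.right_inv ht]

/-- the first coordinate of a regular chart -/
theorem regChart_fst {Z : Set X} {q : X} {κ : OpenPartialHomeomorph X (Fin 2 → ℂ)}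
    (hκ : H331.RegChart Z q κ) : HolN (fun x => κ x 0) q ∧
      mfderiv 𝓘(ℂ, Cm 2) 𝓘(ℂ) (fun x => κ x 0) q ≠ 0 := by
  have hh : ∀ x ∈ κ.source, MDifferentiableAt 𝓘(ℂ, Cm 2) 𝓘(ℂ) (fun x => κ x 0) x := by
    intro x hx
    have h1 := (hκ.hol x hx).mdifferentiableAt (κ.open_source.mem_nhds hx)
    have h2 : MDifferentiableAt 𝓘(ℂ, Fin 2 → ℂ) 𝓘(ℂ) (fun w : Fin 2 → ℂ => w 0) (κ x) := by
      rw [mdifferentiableAt_iff_differentiableAt]
      exact differentiableAt_pi.1 differentiableAt_id 0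
    exact MDifferentiableAt.comp x h2 h1
  refine ⟨?_, fun h0 => ?_⟩
  · filter_upwards [κ.open_source.mem_nhds hκ.mem] with x hx using hh x hx
  · have h1 : MDifferentiableAt 𝓘(ℂ, Fin 2 → ℂ) 𝓘(ℂ, Cm 2) κ.symm 0 :=
      (hκ.holSymm _ hκ.zero_mem).mdifferentiableAt (κ.open_target.mem_nhds hκ.zero_mem)
    have h2 : MDifferentiableAt 𝓘(ℂ, Cm 2) 𝓘(ℂ) (fun x => κ x 0) (κ.symm 0) := by
      rw [hκ.symm_zero]
      exact hh q hκ.mem
    have h3 := mfderiv_comp (0 : Fin 2 → ℂ) h2 h1
    have h4 : ((fun x => κ x 0) ∘ κ.symm) =ᶠ[𝓝 (0 : Fin 2 → ℂ)] fun w => w 0 := by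
      filter_upwards [κ.open_target.mem_nhds hκ.zero_mem] with w hw
      show κ (κ.symm w) 0 = w 0
      rw [κ.right_inv hw]
    rw [h4.mfderiv_eq, mfderiv_eq_fderiv] at h3
    have h5 : fderiv ℂ (fun w : Fin 2 → ℂ => w 0) 0 =
        ContinuousLinearMap.proj (R := ℂ) (φ := fun _ : Fin 2 => ℂ) 0 :=
      (ContinuousLinearMap.proj (R := ℂ) (φ := fun _ : Fin 2 => ℂ) 0).hasFDerivAt.fderiv
    have h6 : mfderiv 𝓘(ℂ, Cm 2) 𝓘(ℂ) (fun x => κ x 0) (κ.symm 0) = 0 := by
      have key : ∀ y, y = q → mfderiv 𝓘(ℂ, Cm 2) 𝓘(ℂ) (fun x => κ x 0) y = 0 := by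
        intro y hy
        subst hy
        exact h0
      exact key _ hκ.symm_zero
    rw [h6, h5] at h3
    have h7 := congrArg (fun T : (Fin 2 → ℂ) →L[ℂ] ℂ => T ![1, 0]) h3
    simp at h7
    exact (one_ne_zero : (1 : ℂ) ≠ 0) (h7.trans rfl)

/-- A compact irreducible reduced divisor `D` with `H¹(𝒪_D) = 0` is a smooth rational curve. -/
theorem smoothRational_of_H1 [CompactSpace X] [T2Space X] (D : EffDiv X) (hne : D.supp.Nonempty)
    (hconn : IsPreconnected (D.supp \ Sing D)) (hsing : (Sing D).Countable)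
    (hdense : D.supp ⊆ closure (D.supp \ Sing D))
    (H1 : ∀ b : X → Fin 2 → ℂ, Reg1 ∞ 0 b → I2 D (dbar1 0 b) →
      ∃ t : X → ℂ, Reg0 ∞ 0 t ∧ I1 D (fun x => b x - dbar0 0 t x)) :
    D.IsSmoothRational := by
  have : IsManifold 𝓘(ℂ, Cm 2) 1 X := IsManifold.of_le (n := ω) le_top
  have : SecondCountableTopology X := ChartedSpace.secondCountable_of_sigmaCompact (Cm 2) X
  -- a regular point
  obtain ⟨p, hp⟩ : (D.supp \ Sing D).Nonempty := by
    by_contra hcon
    rw [not_nonempty_iff_eq_empty] at hcon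
    obtain ⟨z, hz⟩ := hne
    have := hdense hz
    rw [hcon, closure_empty] at this
    exact this
  have hreg : ∀ q ∈ D.supp \ Sing D, q ∈ H331.Reg D.supp := by
    intro q hq
    obtain ⟨e, he, heU⟩ := exists_isCoord D hq
    exact ⟨_, he.regChart ((compl_sing_iff D).1 hq).1 fun y hy => mem_supp_iff D (heU hy)⟩
  obtain ⟨Φ, hΦ, e, he, heU, ψ, hψ, hψe⟩ := exists_pole D H1 hp
  have hp0 : D.f p p = 0 := ((compl_sing_iff D).1 hp).1
  have hcl : IsClosed D.supp := isClosed_supp D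
  have hcount : (D.supp \ H331.Reg D.supp).Countable := by
    refine hsing.mono ?_
    rintro q ⟨hq1, hq2⟩
    by_contra h
    exact hq2 (hreg q ⟨hq1, h⟩)
  have hcont : ContinuousOn Φ (D.supp \ {p}) := by
    rintro q ⟨hq1, hq2⟩
    obtain ⟨φ, hφ, hφe⟩ := hΦ q hq1 hq2
    have h1 : ContinuousWithinAt φ (D.supp \ {p}) q := hφ.continuousAt.continuousWithinAt
    refine h1.congr_of_eventuallyEq ?_ (hφe.self_of_nhds hq1)
    rw [EventuallyEq, eventually_nhdsWithin_iff]
    filter_upwards [hφe] with y hy hy'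
    exact hy hy'.1
  -- the closure of the component is the whole curve
  have hcmp : D.supp \ Sing D ⊆ H331.Cmp D.supp p :=
    hconn.subset_connectedComponentIn hp fun q hq => hreg q hq
  have hclosure : closure (H331.Cmp D.supp p) = D.supp := by
    apply Subset.antisymm
    · exact closure_minimal (H331.Cmp_sub.trans H331.Reg_sub) hcl
    · exact hdense.trans (closure_mono hcmp)
  -- regular points have regular charts in which holomorphic functions are analytic
  have hhol : ∀ q ∈ H331.Cmp D.supp p, q ≠ p → ∃ κ, H331.RegChart D.supp q κ ∧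
      AnalyticAt ℂ (fun t => Φ (H331.dsc κ t)) 0 := by
    intro q hq hqp
    have hqZ : q ∈ D.supp := H331.Reg_sub (H331.Cmp_sub hq)
    obtain ⟨κ, hκ⟩ := H331.Cmp_sub hq
    obtain ⟨φ, hφ, hφe⟩ := hΦ q hqZ hqp
    refine ⟨κ, hκ, ?_⟩
    have hd0 : H331.dsc κ 0 = q := hκ.dsc_zero
    have h1 : AnalyticAt ℂ (fun t => φ (H331.dsc κ t)) 0 := by
      have h2 : ∀ᶠ t in 𝓝 (0 : ℂ), DifferentiableAt ℂ (fun t => φ (H331.dsc κ t)) t := by
        have h3 : ∀ᶠ t in 𝓝 (0 : ℂ), (![0, t] : Fin 2 → ℂ) ∈ κ.target := by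
          refine H331.continuous_vec.continuousAt.eventually_mem (κ.open_target.mem_nhds ?_)
          rw [H331.RegChart.vec_zero]
          exact hκ.zero_mem
        have h4 : ContinuousAt (H331.dsc κ) 0 := by
          refine (H331.Amb.mdiff_dsc hκ ?_).continuousAt
          rw [H331.RegChart.vec_zero]
          exact hκ.zero_mem
        have h5 : ∀ᶠ t in 𝓝 (0 : ℂ), HolN φ (H331.dsc κ t) := by
          refine h4.eventually ?_
          rw [hd0]
          exact hφ.eventually
        filter_upwards [h3, h5] with t ht3 ht5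
        have h6 := MDifferentiableAt.comp (g := φ) t ht5.self (H331.Amb.mdiff_dsc hκ ht3)
        exact h6.differentiableAt
      obtain ⟨U, hU, hUo, h0U⟩ := _root_.eventually_nhds_iff.1 h2
      exact (DifferentiableOn.analyticAt (s := U)
        (fun t ht => (hU t ht).differentiableWithinAt) (hUo.mem_nhds h0U))
    refine h1.congr ?_
    have h4 : ContinuousAt (H331.dsc κ) 0 := by
      refine (H331.Amb.mdiff_dsc hκ ?_).continuousAt
      rw [H331.RegChart.vec_zero]
      exact hκ.zero_mem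
    have h5 : ∀ᶠ t in 𝓝 (0 : ℂ), H331.dsc κ t ∈ D.supp := by
      have h3 : ∀ᶠ t in 𝓝 (0 : ℂ), (![0, t] : Fin 2 → ℂ) ∈ κ.target := by
        refine H331.continuous_vec.continuousAt.eventually_mem (κ.open_target.mem_nhds ?_)
        rw [H331.RegChart.vec_zero]
        exact hκ.zero_mem
      filter_upwards [h3] with t ht
      refine (hκ.iff _ (κ.map_target ht)).2 ?_
      rw [κ.right_inv ht]
      rfl
    have h6 : ∀ᶠ t in 𝓝 (0 : ℂ), H331.dsc κ t ∈ D.supp → Φ (H331.dsc κ t) = φ (H331.dsc κ t) := by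
      have h7 : Tendsto (H331.dsc κ) (𝓝 0) (𝓝 q) := by
        have := h4.tendsto
        rwa [hd0] at this
      exact h7.eventually hφe
    filter_upwards [h5, h6] with t ht5 ht6
    exact (ht6 ht5).symm
  have hAmb : H331.Amb D.supp p Φ 0 := by
    refine ⟨hcl, hcount, hcont, hhol, ?_, ?_⟩
    · refine ⟨_, he.regChart hp0 fun y hy => mem_supp_iff D (heU hy),
        fun t => ψ (e.symm (0, t)), he.analytic_dsc hp0 hψ, ?_⟩
      refine nhdsWithin_le_nhds ?_
      filter_upwards [he.dsc_mem hp0 heU, (he.tendsto_dsc hp0).eventually hψe,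
        he.target_dsc hp0] with t ht1 ht2 ht3
      show Φ (e.symm (0, t)) = _
      rw [ht2 ht1, e.right_inv ht3]
    · rw [Filter.cocompact_eq_bot, bot_inf_eq]
      exact tendsto_bot
  rcases hAmb.sphere_or_plane with ⟨g0, g1, hS⟩ | ⟨G, hG⟩
  · -- the curve is smooth
    have hemb := hS.embedded (by rw [hclosure]) (fun q hq hqp => by
      rw [hclosure] at hq
      obtain ⟨φ, hφ, hφe⟩ := hΦ q hq hqp
      refine ⟨φ ∘ (chartAt (Cm 2) q).symm, ?_, ?_⟩
      · exact hφ.analyticAt.differentiableAt.restrictScalars ℝ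
      · filter_upwards [hφe, (chartAt (Cm 2) q).open_source.mem_nhds (mem_chart_source (Cm 2) q)]
          with y hy hys hyZ
        rw [hy hyZ]
        show φ y = φ ((chartAt (Cm 2) q).symm (chartAt (Cm 2) q y))
        rw [(chartAt (Cm 2) q).left_inv hys])
    rw [hclosure] at hemb
    constructor
    · intro x y hy h0
      have hyZ : y ∈ D.supp := (mem_supp_iff D hy).2 h0
      obtain ⟨κ, hκ⟩ := hemb y hyZ
      obtain ⟨hl, hl'⟩ := regChart_fst hκ
      obtain ⟨Q, hQ, hQe⟩ := div_of_vanish D hdense hl (by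
        filter_upwards [κ.open_source.mem_nhds hκ.mem] with w hw hwZ
        exact (hκ.iff w hw).1 hwZ)
      have h1 : mfderiv 𝓘(ℂ, Cm 2) 𝓘(ℂ) (D.f y) y ≠ 0 := by
        have hys := mem_chart_source (Cm 2) y
        have hfy := holN_f D y (D.mem y)
        rw [mfderiv_ne_zero_iff y hys hl.self] at hl'
        rw [mfderiv_ne_zero_iff y hys hfy.self]
        intro h2
        apply hl'
        set φ := chartAt (Cm 2) y with hφ
        have h3 : (fun x => κ x 0) ∘ φ.symm =ᶠ[𝓝 (φ y)]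
            fun w => (D.f y ∘ φ.symm) w * (Q ∘ φ.symm) w :=
          (eventually_chart_iff y hys (p := fun z => κ z 0 = D.f y z * Q z)).2 hQe
        have h4 := (hfy.analyticAt).differentiableAt
        have h5 := (hQ.analyticAt).differentiableAt
        rw [h3.fderiv_eq, fderiv_fun_mul h4 h5]
        have h6 : (D.f y ∘ φ.symm) (φ y) = 0 := by
          show D.f y (φ.symm (φ y)) = 0
          rw [φ.left_inv hys]
          exact hyZ
        rw [h6]
        have h7 : fderiv ℂ (D.f y ∘ (chartAt (Cm 2) y).symm) (chartAt (Cm 2) y y) = 0 := h2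
        rw [h7]
        ext v
        simp
      intro h2
      have h3 := (mem_sing_iff D hy).2 ⟨h0, h2⟩
      exact h1 h3.2
    · refine ⟨⟨g0, g1, hS.hol0, hS.hol1, hS.glue⟩, hS.inj, ?_, ?_⟩
      · rintro ⟨z, hz⟩
        have hz' : g0 z = g1 0 := hz
        rw [hS.zero] at hz'
        exact hS.ne z hz'
      · have h1 := hS.ran
        rw [hclosure] at h1
        refine h1.trans ?_
        show insert p (range g0) = range g0 ∪ {g1 0}
        rw [hS.zero, union_comm]
        rfl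
  · exfalso
    have h1 := hG.lim
    rw [Filter.cocompact_eq_bot (X := X)] at h1
    have h2 : (∅ : Set X) ∈ (⊥ : Filter X) := mem_bot
    have h3 := h1 h2
    rw [mem_map, preimage_empty] at h3
    exact (inferInstance : (cocompact ℂ).NeBot).ne (empty_mem_iff_bot.1 h3)

end Vale.Agent.P267.H815
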