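import Vale.Agent.P267.H815.Num
import Vale.Agent.P267.H815.Sphere
import Vale.Agent.P267.H823.Main

/-!
# P267, package CURV-C6 (helper815): an irreducible curve with `χ(𝒪_C) ≥ 1` is `ℙ¹`
-/

open scoped Manifold ContDiff ComplexConjugate Matrix Topology
open Set Filter

noncomputable section

namespace Vale.Agent.P267.H815

open Vale.Agent.P267.FL Vale.Agent.P267.H682
open Vale.Agent.P267.RR (chi OX FiniteStmt SerreStmt)

variable {X : Type} [TopologicalSpace X] [ChartedSpace C2 X] [IsManifold 𝓘(ℂ, C2) ω X]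
variable {ι : Type} [Fintype ι] [DecidableEq ι]

theorem i1_of_mem {D : EffDiv X} {α : X → Fin 2 → ℂ} (h : α ∈ H365.I1 D 0) : I1 D α := by
  intro x
  obtain ⟨β, h1, h2⟩ := h.2 x
  refine ⟨β, ?_⟩
  filter_upwards [h1, h2] with y hy hy'
  refine ⟨hy, ?_⟩
  funext p
  rw [hy' p]
  rfl

theorem mem_of_i0 {D : EffDiv X} {α : X → ℂ} (hr : Reg0 ∞ 0 α) (h : I0 D α) :
    α ∈ H365.I0 D 0 := by
  refine ⟨hr, fun x => ?_⟩
  obtain ⟨β, hβ⟩ := h x
  refine ⟨β, ?_, ?_⟩
  · filter_upwards [hβ] with y hy using hy.1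
  · filter_upwards [hβ] with y hy using hy.2

theorem mem_of_i2 {D : EffDiv X} {α : X → ℂ} (hr : Reg2 ∞ 0 α) (h : I2 D α) :
    α ∈ H365.I2 D 0 := by
  refine ⟨hr, fun x => ?_⟩
  obtain ⟨β, hβ⟩ := h x
  refine ⟨β, ?_, ?_⟩
  · filter_upwards [hβ] with y hy using hy.1
  · filter_upwards [hβ] with y hy using hy.2

theorem prime_rational [CompactSpace X] [T2Space X] [ConnectedSpace X] (hF : FiniteStmt X)
    (hS : SerreStmt X) (hpg : PgZero X) {C : EffDiv X} (hC : H823.Prime C) (A : H451.DivLB C ι)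
    (hdual : A.L.dual.IsHol (-A.a)) (hchi : chi A.L.dual (-A.a) 0 < chi (OX X) 0 0) :
    chi (OX X) 0 0 = chi A.L.dual (-A.a) 0 + 1 ∧ C.IsSmoothRational := by
  have key := cone A hF hS hpg hdual (fun φ hφ h => by
    obtain ⟨c, hc⟩ := h0_const C hC.conn.isPreconnected hC.fin.countable hC.dense hφ (i1_of_mem h)
    refine ⟨c, mem_of_i0 ?_ hc⟩
    have hcr : Reg0 ∞ 0 (fun _ : X => c) := by
      have h1 : ∀ e : Ch X, loc0 0 e (fun _ : X => c) = fun _ => c := fun e => by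
        funext z
        simp [loc0]
      intro e _
      rw [h1]
      exact contDiffOn_const
    exact reg0_iff_at.2 fun x => (hφ.at x).sub (hcr.at x)) hchi
  refine ⟨key.1, ?_⟩
  refine smoothRational_of_H1 C hC.nonempty hC.conn.isPreconnected hC.fin.countable hC.dense ?_
  intro b hb hb2
  obtain ⟨t, ht, ht2⟩ := key.2 b hb (mem_of_i2 (reg2_iff_at.2 fun x => (hb.at x).dbar (by simp)) hb2)
  exact ⟨t, ht, i1_of_mem ht2⟩

end Vale.Agent.P267.H815
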