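import Vale.Agent.P267.H815.Pairing
import Vale.Agent.P267.H815.Prime
import Vale.Agent.P267.H62.NFDiv
import Vale.Agent.P267.H451.SelfInt

/-!
# P267, package CURV-C6 (helper815): `L·L' = Σ m_c L_c·L'` for the components of a section
-/

set_option linter.unusedSectionVars false

open scoped Manifold ContDiff ComplexConjugate Matrix Topology
open Set Filter MeasureTheory

noncomputable section

namespace Vale.Agent.P267.H815

open Vale.Agent.P267.FL Vale.Agent.P267.H757 Vale.Agent.P267.H332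
open Vale.Agent.P272.K (Chart At Cm)
open Vale.Agent.P267.H62 (Rep)

variable {X : Type*} [TopologicalSpace X] [ChartedSpace C2 X] [IsManifold 𝓘(ℂ, C2) ω X]

/-- smooth at a point, in the charts -/
def SmAt (R : X → ℝ) (y : X) : Prop :=
  ∀ e : Chart 2 X, At e y → ContDiffAt ℝ ∞ (fun z => R (e.symm z)) (e y)

theorem SmAt.continuousAt {R : X → ℝ} {y : X} (h : SmAt R y) : ContinuousAt R y := by
  set e := chartAt (Cm 2) y with he
  have hs : y ∈ e.source := mem_chart_source _ y
  have h1 : ContinuousAt (fun z => R (e.symm z)) (e y) := (h e ⟨chart_mem_atlas _ y, hs⟩).continuousAt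
  have h2 : ContinuousAt (fun w => R (e.symm (e w))) y :=
    ContinuousAt.comp (g := fun z => R (e.symm z)) (f := e) h1 (e.continuousAt hs)
  refine h2.congr ?_
  filter_upwards [e.open_source.mem_nhds hs] with w hw
  rw [e.left_inv hw]

/-- Two functions whose ratio is locally a positive smooth function. -/
theorem exists_ratio {N N' : X → ℝ} (hd : ∀ y, ∃ᶠ z in 𝓝 y, N' z ≠ 0)
    (h : ∀ p, ∃ R : X → ℝ, ∀ᶠ y in 𝓝 p, SmAt R y ∧ 0 < R y ∧ N y = N' y * R y) :
    ∃ ψ : X → ℝ, ContMDiff 𝓘(ℝ, C2) 𝓘(ℝ) ∞ ψ ∧ ∀ x, N x = N' x * Real.exp (ψ x) := by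
  choose R hR using h
  have key : ∀ p, ∀ᶠ y in 𝓝 p, R y y = R p y := by
    intro p
    filter_upwards [(hR p).eventually_nhds] with y hy
    refine H62.eq_of_frequently (A := R y) (B := R p) (hR y).self_of_nhds.1.continuousAt
      hy.self_of_nhds.1.continuousAt ?_
    refine ((hd y).and_eventually ((hR y).and hy)).mono ?_
    rintro z ⟨hz, h1, h2⟩
    exact mul_left_cancel₀ hz (h1.2.2.symm.trans h2.2.2)
  refine ⟨fun y => Real.log (R y y), ?_, fun x => ?_⟩
  · rw [← contMDiffOn_univ]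
    refine H62.contMDiffOn_of_charts fun y _ e he => ?_
    have h1 : ContDiffAt ℝ ∞ (fun z => R y (e.symm z)) (e y) := (hR y).self_of_nhds.1 e he
    have h2 : R y (e.symm (e y)) ≠ 0 := by
      rw [e.left_inv he.2]
      exact (hR y).self_of_nhds.2.1.ne'
    refine (h1.log h2).congr_of_eventuallyEq ?_
    have h3 : Tendsto e.symm (𝓝 (e y)) (𝓝 y) := by
      have := (e.continuousAt_symm (e.map_source he.2)).tendsto
      rwa [e.left_inv he.2] at this
    filter_upwards [h3.eventually (key y)] with z hz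
    rw [hz]
  · have h1 := (hR x).self_of_nhds
    rw [Real.exp_log h1.2.1]
    exact h1.2.2

theorem smAt_normSq {u : X → ℂ} {y : X} (h : HolN u y) : SmAt (fun z => ‖u z‖ ^ 2) y := by
  have : IsManifold 𝓘(ℂ, Cm 2) 1 X := IsManifold.of_le (n := ω) le_top
  obtain ⟨U, hU, hUo, hy⟩ := eventually_nhds_iff.1 h
  have h1 : MDifferentiableOn 𝓘(ℂ, Cm 2) 𝓘(ℂ) u U := fun z hz =>
    (hU z hz).mdifferentiableWithinAt
  exact fun e he => H62.contDiffAt_chart hUo (H757.smoothOn_normSq hUo h1) hy he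

/-- The norm function of a divisor and the product of the norm functions of its components differ
by a positive smooth factor. -/
theorem ratio_components {D : EffDiv X} {h : X → X → ℝ} {N : X → ℝ} (hr : Rep D h N) {n : ℕ}
    {C : Fin n → EffDiv X} {m : Fin n → ℕ} {hc : Fin n → X → X → ℝ} {Nc : Fin n → X → ℝ}
    (hrc : ∀ c, Rep (C c) (hc c) (Nc c))
    (hA : ∀ x, Assoc (D.f x) (fun z => ∏ c, (C c).f x z ^ m c) x) :
    ∃ ψ : X → ℝ, ContMDiff 𝓘(ℝ, C2) 𝓘(ℝ) ∞ ψ ∧
      ∀ x, N x = (∏ c, Nc c x ^ m c) * Real.exp (ψ x) := by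
  have hnf : IsNormFn C2 fun x => ∏ c, Nc c x ^ m c :=
    isNormFn_prod _ fun c _ => ((hrc c).isNormFn).pow (m c)
  refine exists_ratio (fun y => ?_) fun p => ?_
  · have h1 := hnf.dense_ne_zero y
    rwa [mem_closure_iff_frequently] at h1
  · obtain ⟨u, hu, hue⟩ := hA p
    refine ⟨fun y => ‖u y‖ ^ 2 * h p y * (∏ c, hc c p y ^ m c)⁻¹, ?_⟩
    filter_upwards [hu.eventually, hue, mem_nhds D p,
      eventually_all.2 fun c => mem_nhds (C c) p] with y hy1 hy2 hy3 hy4
    have hpos : ∀ c, 0 < hc c p y := fun c => (hrc c).metric.pos p y (hy4 c)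
    have hprod : 0 < ∏ c, hc c p y ^ m c := Finset.prod_pos fun c _ => pow_pos (hpos c) _
    have hh : 0 < h p y := hr.metric.pos p y hy3
    refine ⟨fun e he => ?_, ?_, ?_⟩
    · have h1 := smAt_normSq hy1.1 e he
      have h2 := hr.metric.smooth p y hy3 e he
      have h3 : ContDiffAt ℝ ∞ (fun z => ∏ c, hc c p (e.symm z) ^ m c) (e y) :=
        contDiffAt_prod fun c _ => ((hrc c).metric.smooth p y (hy4 c) e he).pow (m c)
      refine (h1.mul h2).mul (h3.inv ?_)
      rw [e.left_inv he.2]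
      exact hprod.ne'
    · have := norm_pos_iff.2 hy1.2
      positivity
    · have e1 : ∀ c, Nc c y = ‖(C c).f p y‖ ^ 2 * hc c p y := fun c => ((hrc c).eq p y (hy4 c)).symm
      simp only [e1, ← hr.eq p y hy3, hy2, mul_pow, norm_mul, norm_prod, norm_pow,
        Finset.prod_mul_distrib]
      have e2 : (∏ c, ‖(C c).f p y‖ ^ m c) ^ 2 = ∏ c, (‖(C c).f p y‖ ^ 2) ^ m c := by
        rw [← Finset.prod_pow]
        exact Finset.prod_congr rfl fun c _ => by rw [← pow_mul, ← pow_mul, mul_comm]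
      rw [e2]
      field_simp

variable {ι : Type} [Fintype ι] [DecidableEq ι] {ι' : Type} [Fintype ι'] [DecidableEq ι']

/-- the norm function of the canonical section -/
theorem divLB_rep {D : EffDiv X} (B : H451.DivLB D ι) :
    Rep D (fun x y => ‖B.v x y‖ ^ 2) (fun x => ‖B.s x‖ ^ 2) where
  metric := B.isMetric
  eq := fun x y hy => by
    rw [← mul_pow, ← norm_smul, ← B.s_eq x y hy]

theorem dense_ne {D : EffDiv X} (B : H451.DivLB D ι) : Dense {x | B.s x ≠ 0} := by
  have h1 := (divLB_rep B).isNormFn.dense_ne_zero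
  have h2 : {x | B.s x ≠ 0} = {x | ‖B.s x‖ ^ 2 ≠ 0} := by
    ext x
    simp
  rw [h2]
  exact h1

/-- **Additivity.** The intersection number with the line bundle of a section is the sum of the
intersection numbers with the irreducible components of its divisor. -/
theorem isec_components [CompactSpace X] [T2Space X] {L : LB X ι} {a : X → Fin 2 → ℂ}
    (ha : L.IsHol a) {s : X → EuclideanSpace ℂ ι} (hs : Reg0 ∞ 0 s) (hsec : L.Sec s)
    (h0 : ∀ x i, L.db0 a 0 s x i = 0) (hd : Dense {x | s x ≠ 0}) :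
    ∃ (n : ℕ) (C : Fin n → EffDiv X) (m : Fin n → ℕ) (k : Fin n → ℕ)
      (A : ∀ c, H451.DivLB (C c) (Fin (k c))), (∀ c, H823.Prime (C c)) ∧
      ∀ (ι' : Type) [Fintype ι'] [DecidableEq ι'] (LK : LB X ι'),
        RR.isec L LK = ∑ c, (m c : ℂ) * RR.isec (A c).L LK := by
  obtain ⟨D, h, hr⟩ := H62.exists_rep (H821.lbnf ha hs hsec h0 hd).1
  obtain ⟨n, C, m, -, hp, hA, -⟩ := H823.exists_components D
  choose k hk using fun c => H451.exists_divLB (C c)
  have A : ∀ c, H451.DivLB (C c) (Fin (k c)) := fun c => (hk c).some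
  refine ⟨n, C, m, k, A, hp, fun ι' _ _ LK => ?_⟩
  obtain ⟨ψ, hψ, hN⟩ := ratio_components hr (fun c => divLB_rep (A c)) hA
  have hnf : ∀ c, IsNormFn C2 fun x => ‖(A c).s x‖ ^ 2 := fun c => (divLB_rep (A c)).isNormFn
  have hη := LK.curv_smooth
  have hηc := LK.curv_closed
  have e1 : (fun x => ‖s x‖ ^ 2) =
      fun x => (∏ c, (‖(A c).s x‖ ^ 2) ^ m c) * Real.exp (ψ x) := funext hN
  have hexp : IsNormFn C2 fun x => Real.exp (ψ x) := by
    have := isNormFn_exp hψ.neg
    simpa using this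
  have e2 : pn LK.curv (fun x => ‖s x‖ ^ 2) =
      ∑ c, (m c : ℂ) * pn LK.curv fun x => ‖(A c).s x‖ ^ 2 := by
    rw [e1, pn_mul hη hηc (isNormFn_prod _ fun c _ => (hnf c).pow (m c)) hexp, pn_exp hη hηc hψ,
      add_zero, pn_prod hη hηc _ fun c _ => (hnf c).pow (m c)]
    exact Finset.sum_congr rfl fun c _ => pn_pow hη hηc (hnf c) (m c)
  rw [isec_eq ha hs hsec h0 hd LK, e2, Finset.mul_sum]
  refine Finset.sum_congr rfl fun c _ => ?_
  rw [isec_eq (A c).hol (A c).s_reg (A c).s_sec (A c).s_hol (dense_ne (A c)) LK]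
  ring

/-- `C·C = d` in the sense of the statement if `(L_C)·(L_C) = d` -/
theorem selfInt_of_isec [CompactSpace X] [T2Space X] {D : EffDiv X} (B : H451.DivLB D ι) {d : ℝ}
    (h : RR.isec B.L B.L = d) : D.SelfInt d := by
  rw [B.selfInt_iff]
  change FL.intX ((B.L.chern B.a).wedge (B.L.chern B.a)) = _
  rw [intX_chern_chern B.hol B.s_reg B.s_sec B.s_hol (dense_ne B)]
  rw [RR.isec] at h
  have hpi : (Real.pi : ℂ) ≠ 0 := Complex.ofReal_ne_zero.2 Real.pi_ne_zero
  push_cast
  rw [← h]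
  field_simp

end Vale.Agent.P267.H815
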