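import Vale.Agent.P267.H815.Hol
import Mathlib.Analysis.Calculus.InverseFunctionTheorem.ContDiff

/-!
# P267, D4: coordinates adapted to a function with nonzero differential (helper815)
-/

open scoped Manifold ContDiff Topology
open Set Filter Metric
open Vale.Agent.P272.K

set_option linter.unusedSectionVars false

noncomputable section

namespace Vale.Agent.P267.H815

theorem exists_lin {T : Cm 2 →L[ℂ] ℂ} (hT : T ≠ 0) : ∃ (j : Fin 2) (A : Cm 2 ≃L[ℂ] ℂ × ℂ),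
    ∀ v, A v = (T v, v j) := by
  have h1 : ∃ i : Fin 2, T (Pi.single i 1) ≠ 0 := by
    by_contra hcon
    push Not at hcon
    apply hT
    refine ContinuousLinearMap.coe_injective (LinearMap.pi_ext' fun i => ?_)
    ext
    simpa using hcon i
  obtain ⟨i, hi⟩ := h1
  obtain ⟨j, hij, hj⟩ : ∃ j : Fin 2, i ≠ j ∧ ∀ k, k = i ∨ k = j := by
    fin_cases i
    · exact ⟨1, by decide, by decide⟩
    · exact ⟨0, by decide, by decide⟩
  set B : Cm 2 →L[ℂ] ℂ × ℂ := T.prod (ContinuousLinearMap.proj j) with hB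
  have hinj : Function.Injective B := by
    rw [injective_iff_map_eq_zero]
    intro v hv
    have h2 : T v = 0 := congrArg Prod.fst hv
    have h3 : v j = 0 := congrArg Prod.snd hv
    have h4 : v = v i • Pi.single i (1 : ℂ) := by
      ext k
      rcases hj k with rfl | rfl
      · simp
      · simp [hij.symm, h3]
    rw [h4, map_smul, smul_eq_mul, mul_eq_zero] at h2
    rw [h4, h2.resolve_right hi, zero_smul]
  have hfin : Module.finrank ℂ (Cm 2) = Module.finrank ℂ (ℂ × ℂ) := by simp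
  refine ⟨j, (LinearEquiv.ofInjectiveOfFinrankEq (B : Cm 2 →ₗ[ℂ] ℂ × ℂ) hinj
    hfin).toContinuousLinearEquiv, fun v => ?_⟩
  rfl

/-- adapted coordinates in the model space -/
theorem exists_coord {F : Cm 2 → ℂ} {x₀ : Cm 2} (hF : AnalyticAt ℂ F x₀)
    (hd : fderiv ℂ F x₀ ≠ 0) : ∃ e : OpenPartialHomeomorph (Cm 2) (ℂ × ℂ), x₀ ∈ e.source ∧
      e x₀ = (F x₀, 0) ∧ (∀ y ∈ e.source, (e y).1 = F y) ∧ (∀ y ∈ e.source, AnalyticAt ℂ e y) ∧
      ∀ z ∈ e.target, AnalyticAt ℂ e.symm z := by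
  obtain ⟨j, A, hA⟩ := exists_lin hd
  set G : Cm 2 → ℂ × ℂ := fun y => (F y, y j - x₀ j) with hG
  have hGa : AnalyticAt ℂ G x₀ := by
    refine hF.prod ?_
    have h2 : AnalyticAt ℂ (fun y : Cm 2 => y j) x₀ :=
      (ContinuousLinearMap.proj (R := ℂ) (φ := fun _ : Fin 2 => ℂ) j).analyticAt x₀
    exact h2.sub analyticAt_const
  have hG' : HasFDerivAt G (A : Cm 2 →L[ℂ] ℂ × ℂ) x₀ := by
    have h1 : HasFDerivAt F (fderiv ℂ F x₀) x₀ := hF.differentiableAt.hasFDerivAt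
    have h2 : HasFDerivAt (fun y : Cm 2 => y j - x₀ j)
        (ContinuousLinearMap.proj (R := ℂ) (φ := fun _ : Fin 2 => ℂ) j) x₀ :=
      (ContinuousLinearMap.proj (R := ℂ) (φ := fun _ : Fin 2 => ℂ) j).hasFDerivAt.sub_const (x₀ j)
    have h3 := h1.prodMk h2
    have h4 : (A : Cm 2 →L[ℂ] ℂ × ℂ) = (fderiv ℂ F x₀).prod
        (ContinuousLinearMap.proj (R := ℂ) (φ := fun _ : Fin 2 => ℂ) j) :=
      ContinuousLinearMap.ext fun v => hA v
    rw [h4]
    exact h3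
  have hcd : ContDiffAt ℂ ω G x₀ := hGa.contDiffAt
  set e := hcd.toOpenPartialHomeomorph G hG' (by simp) with he
  have hx₀ : x₀ ∈ e.source := hcd.mem_toOpenPartialHomeomorph_source hG' (by simp)
  have hcoe : ∀ y, e y = G y := fun y => rfl
  have hsymm : AnalyticAt ℂ e.symm (e x₀) :=
    (hcd.to_localInverse hG' (by simp)).analyticAt
  have hS : IsOpen {y | AnalyticAt ℂ G y} := isOpen_analyticAt ℂ G
  have hT : IsOpen {z | AnalyticAt ℂ e.symm z} := isOpen_analyticAt ℂ e.symm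
  have hS2 : IsOpen ({y | AnalyticAt ℂ G y} ∩ (e.source ∩ e ⁻¹' {z | AnalyticAt ℂ e.symm z})) :=
    hS.inter (e.isOpen_inter_preimage hT)
  refine ⟨e.restr ({y | AnalyticAt ℂ G y} ∩ (e.source ∩ e ⁻¹' {z | AnalyticAt ℂ e.symm z})),
    ?_, ?_, ?_, ?_, ?_⟩
  · rw [e.restr_source, hS2.interior_eq]
    exact ⟨hx₀, hGa, hx₀, hsymm⟩
  · show e x₀ = _
    rw [hcoe]
    simp [hG]
  · intro y _
    rfl
  · intro y hy
    rw [e.restr_source, hS2.interior_eq] at hy
    exact hy.2.1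
  · intro z hz
    have h1 := (e.restr ({y | AnalyticAt ℂ G y} ∩
      (e.source ∩ e ⁻¹' {z | AnalyticAt ℂ e.symm z}))).map_target hz
    rw [e.restr_source, hS2.interior_eq] at h1
    have h2 : e (e.symm z) = z := by
      refine e.right_inv ?_
      exact hz.1
    have h3 : AnalyticAt ℂ e.symm (e (e.symm z)) := h1.2.2.2
    rw [h2] at h3
    exact h3

section manifold

variable {X : Type*} [TopologicalSpace X] [ChartedSpace (Cm 2) X] [IsManifold 𝓘(ℂ, Cm 2) ω X]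

/-- adapted coordinates on a surface -/
theorem exists_coordM {f : X → ℂ} {p : X} (hf : HolN f p)
    (hd : mfderiv 𝓘(ℂ, Cm 2) 𝓘(ℂ) f p ≠ 0) : ∃ e : OpenPartialHomeomorph X (ℂ × ℂ),
      p ∈ e.source ∧ e p = (f p, 0) ∧ (∀ y ∈ e.source, (e y).1 = f y) ∧
      (∀ y ∈ e.source, ∀ g : X → ℂ, HolN g y ↔ AnalyticAt ℂ (g ∘ e.symm) (e y)) ∧
      e.source ⊆ (chartAt (Cm 2) p).source ∧
      (∀ y ∈ e.source, AnalyticAt ℂ (e ∘ (chartAt (Cm 2) p).symm) (chartAt (Cm 2) p y)) ∧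
      ∀ y ∈ e.source, AnalyticAt ℂ ((chartAt (Cm 2) p) ∘ e.symm) (e y) := by
  set φ := chartAt (Cm 2) p with hφ
  have hp : p ∈ φ.source := mem_chart_source (Cm 2) p
  have h1 : AnalyticAt ℂ (f ∘ φ.symm) (φ p) := (holN_iff p hp).1 hf
  have h2 : fderiv ℂ (f ∘ φ.symm) (φ p) ≠ 0 := (mfderiv_ne_zero_iff p hp hf.self).1 hd
  obtain ⟨e, he1, he2, he3, he4, he5⟩ := exists_coord h1 h2
  have hsrc : ∀ y, y ∈ (φ.trans e).source ↔ y ∈ φ.source ∧ φ y ∈ e.source := by
    intro y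
    simp [OpenPartialHomeomorph.trans_source]
  refine ⟨φ.trans e, ?_, ?_, ?_, ?_, ?_, ?_, ?_⟩
  · exact (hsrc p).2 ⟨hp, he1⟩
  · show e (φ p) = _
    rw [he2]
    show (f (φ.symm (φ p)), (0 : ℂ)) = _
    rw [φ.left_inv hp]
  · intro y hy
    rw [hsrc] at hy
    show (e (φ y)).1 = f y
    rw [he3 _ hy.2]
    show f (φ.symm (φ y)) = f y
    rw [φ.left_inv hy.1]
  · intro y hy g
    rw [hsrc] at hy
    rw [holN_iff p hy.1]
    have h3 : (φ.trans e) y = e (φ y) := rfl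
    have h4 : g ∘ (φ.trans e).symm = (g ∘ φ.symm) ∘ e.symm := rfl
    rw [h3, h4]
    have h5 : e.symm (e (φ y)) = φ y := e.left_inv hy.2
    constructor
    · intro h
      refine AnalyticAt.comp (g := g ∘ φ.symm) (f := e.symm) ?_ (he5 _ (e.map_source hy.2))
      rw [h5]
      exact h
    · intro h
      have h6 : AnalyticAt ℂ (((g ∘ φ.symm) ∘ e.symm) ∘ e) (φ y) :=
        AnalyticAt.comp (g := (g ∘ φ.symm) ∘ e.symm) (f := e) h (he4 _ hy.2)
      refine h6.congr ?_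
      filter_upwards [e.open_source.mem_nhds hy.2] with w hw
      show g (φ.symm (e.symm (e w))) = g (φ.symm w)
      rw [e.left_inv hw]
  · intro y hy
    exact ((hsrc y).1 hy).1
  · intro y hy
    rw [hsrc] at hy
    have h3 : AnalyticAt ℂ e (φ y) := he4 _ hy.2
    refine h3.congr ?_
    filter_upwards [φ.open_target.mem_nhds (φ.map_source hy.1)] with w hw
    show e w = e (φ (φ.symm w))
    rw [φ.right_inv hw]
  · intro y hy
    rw [hsrc] at hy
    have h3 : AnalyticAt ℂ e.symm (e (φ y)) := he5 _ (e.map_source hy.2)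
    have h5 : e.symm (e (φ y)) = φ y := e.left_inv hy.2
    refine h3.congr ?_
    have h6 : ∀ᶠ z in 𝓝 (e (φ y)), e.symm z ∈ φ.target := by
      refine h3.continuousAt.eventually_mem (φ.open_target.mem_nhds ?_)
      rw [h5]
      exact φ.map_source hy.1
    filter_upwards [h6] with z hz
    show e.symm z = φ (φ.symm (e.symm z))
    rw [φ.right_inv hz]

/-- adapted coordinates in a given open set -/
theorem exists_coordU {f : X → ℂ} {p : X} {U : Set X} (hU : IsOpen U) (hpU : p ∈ U)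
    (hf : HolN f p) (hd : mfderiv 𝓘(ℂ, Cm 2) 𝓘(ℂ) f p ≠ 0) :
    ∃ e : OpenPartialHomeomorph X (ℂ × ℂ),
      p ∈ e.source ∧ e p = (f p, 0) ∧ (∀ y ∈ e.source, (e y).1 = f y) ∧
      (∀ y ∈ e.source, ∀ g : X → ℂ, HolN g y ↔ AnalyticAt ℂ (g ∘ e.symm) (e y)) ∧
      e.source ⊆ U ∧ e.source ⊆ (chartAt (Cm 2) p).source ∧
      (∀ y ∈ e.source, AnalyticAt ℂ (e ∘ (chartAt (Cm 2) p).symm) (chartAt (Cm 2) p y)) ∧
      ∀ y ∈ e.source, AnalyticAt ℂ ((chartAt (Cm 2) p) ∘ e.symm) (e y) := by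
  obtain ⟨e, h1, h2, h3, h4, h5, h6, h7⟩ := exists_coordM hf hd
  have hs : (e.restr U).source = e.source ∩ U := by
    rw [e.restr_source, hU.interior_eq]
  refine ⟨e.restr U, ?_, h2, ?_, ?_, ?_, ?_, ?_, ?_⟩
  · rw [hs]
    exact ⟨h1, hpU⟩
  · intro y hy
    rw [hs] at hy
    exact h3 y hy.1
  · intro y hy
    rw [hs] at hy
    exact h4 y hy.1
  · rw [hs]
    exact inter_subset_right
  · rw [hs]
    exact inter_subset_left.trans h5
  · intro y hy
    rw [hs] at hy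
    exact h6 y hy.1
  · intro y hy
    rw [hs] at hy
    exact h7 y hy.1

/-- near a point where `df ≠ 0`, a holomorphic function vanishing on `{f = 0}` is `O(f)` -/
theorem bound_of_vanish {f g : X → ℂ} {p : X} (hf : HolN f p) (h0 : f p = 0)
    (hd : mfderiv 𝓘(ℂ, Cm 2) 𝓘(ℂ) f p ≠ 0) (hg : HolN g p) (hv : ∀ᶠ y in 𝓝 p, f y = 0 → g y = 0) :
    ∃ C : ℝ, ∀ᶠ y in 𝓝 p, ‖g y‖ ≤ C * ‖f y‖ := by
  obtain ⟨e, he1, he2, he3, he4, -, -, -⟩ := exists_coordM hf hd
  have hG : AnalyticAt ℂ (g ∘ e.symm) (e p) := (he4 p he1 g).1 hg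
  obtain ⟨K, t, ht, hK⟩ := (hG.contDiffAt (n := 1)).exists_lipschitzOnWith
  have hep : e p = (0, 0) := by rw [he2, h0]
  have h1 : ∀ᶠ y in 𝓝 p, e y ∈ t := (e.continuousAt he1).eventually ht
  have hproj : Continuous fun z : ℂ × ℂ => ((0 : ℂ), z.2) := by fun_prop
  have h2 : Tendsto (fun y => ((0 : ℂ), (e y).2)) (𝓝 p) (𝓝 (e p)) := by
    have h3 := (hproj.continuousAt (x := e p)).tendsto.comp (e.continuousAt he1).tendsto
    have h4 : ((0 : ℂ), (e p).2) = e p := by rw [hep]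
    rw [h4] at h3
    exact h3
  have h5 : Tendsto e.symm (𝓝 (e p)) (𝓝 p) := by
    have := (e.continuousAt_symm (e.map_source he1)).tendsto
    rwa [e.left_inv he1] at this
  refine ⟨K, ?_⟩
  filter_upwards [h1, h2.eventually ht, h2.eventually (h5.eventually hv),
    h2.eventually (e.open_target.mem_nhds (e.map_source he1)), e.open_source.mem_nhds he1]
    with y hy1 hy2 hy3 hy4 hy5
  have h6 := hK.dist_le_mul _ hy1 _ hy2
  have h7 : (g ∘ e.symm) (e y) = g y := by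
    show g (e.symm (e y)) = g y
    rw [e.left_inv hy5]
  have h8 : (g ∘ e.symm) ((0 : ℂ), (e y).2) = 0 := by
    refine hy3 ?_
    have h9 : e.symm ((0 : ℂ), (e y).2) ∈ e.source := e.map_target hy4
    rw [← he3 _ h9, e.right_inv hy4]
  rw [h7, h8, dist_zero_right] at h6
  refine h6.trans (le_of_eq ?_)
  congr 1
  rw [← he3 _ hy5, dist_eq_norm, Prod.norm_def]
  simp

end manifold

end Vale.Agent.P267.H815
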