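import Vale.Agent.P267.H815.Div
import Vale.Agent.P267.H815.Coord

/-!
# P267, D4: a holomorphic function on a compact irreducible curve is constant (helper815)

No normalisation: the curve is the support of a divisor whose nonsingular locus is connected and
whose singular set is countable.
-/

open scoped Manifold ContDiff Topology
open Set Filter Metric
open Vale.Agent.P272.K

set_option linter.unusedSectionVars false

noncomputable section

namespace Vale.Agent.P267.H815

/-- a nonempty open subset of a compact subset of the plane has uncountable frontier -/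
theorem frontier_not_countable {V K : Set ℂ} (hV : IsOpen V) (hne : V.Nonempty) (hK : IsCompact K)
    (hVK : V ⊆ K) : ¬ (frontier V).Countable := by
  intro hc
  have h1 : IsConnected (frontier V)ᶜ :=
    hc.isConnected_compl_of_one_lt_rank (by simp [Complex.rank_real_complex])
  have hfr : frontier V = closure V \ V := by rw [frontier, hV.interior_eq]
  have hcl : closure V ⊆ K := hK.isClosed.closure_subset_iff.2 hVK
  have h2 := isPreconnected_iff_subset_of_disjoint.1 h1.isPreconnected V (closure V)ᶜ hV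
    isClosed_closure.isOpen_compl (by
      intro z hz
      rw [hfr] at hz
      by_cases h : z ∈ V
      · exact Or.inl h
      · refine Or.inr fun h3 => hz ⟨h3, h⟩) (by
      ext z
      simp only [mem_inter_iff, mem_compl_iff, mem_empty_iff_false, iff_false, not_and]
      intro _ h3 h4
      exact h4 (subset_closure h3))
  rcases h2 with h2 | h2
  · -- the complement of the compact set is nonempty
    obtain ⟨R, hR⟩ := hK.isBounded.subset_closedBall 0
    have h3 : ((R + 1 : ℝ) : ℂ) ∈ (frontier V)ᶜ ∨ R + 1 < 0 := by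
      by_cases h4 : R + 1 < 0
      · exact Or.inr h4
      · refine Or.inl fun h => ?_
        have h5 := hR (hcl (frontier_subset_closure h))
        rw [mem_closedBall_zero_iff, Complex.norm_real, Real.norm_of_nonneg (by linarith)] at h5
        linarith
    rcases h3 with h3 | h3
    · have h5 := hR (hVK (h2 h3))
      rw [mem_closedBall_zero_iff, Complex.norm_real] at h5
      have := le_abs_self (R + 1)
      rw [Real.norm_eq_abs] at h5
      linarith
    · obtain ⟨z, hz⟩ := hne
      have h5 := hR (hVK hz)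
      rw [mem_closedBall_zero_iff] at h5
      have := norm_nonneg z
      linarith
  · obtain ⟨z, hz⟩ := hne
    have h3 : z ∈ (frontier V)ᶜ := by
      rw [hfr]
      exact fun h => h.2 hz
    exact h2 h3 (subset_closure hz)

variable {X : Type*} [TopologicalSpace X] [ChartedSpace (Cm 2) X] [IsManifold 𝓘(ℂ, Cm 2) ω X]

/-- `g` is the restriction of a holomorphic function to `Z`, near `x` -/
def HolZ (Z : Set X) (g : X → ℂ) (x : X) : Prop :=
  ∃ ψ : X → ℂ, HolN ψ x ∧ ∀ᶠ y in 𝓝 x, y ∈ Z → g y = ψ y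

/-- `g` is constant on `Z` near `x` -/
def LC (Z : Set X) (g : X → ℂ) (x : X) : Prop := ∀ᶠ y in 𝓝 x, y ∈ Z → g y = g x

theorem LC.eventually {Z : Set X} {g : X → ℂ} {x : X} (h : LC Z g x) :
    ∀ᶠ y in 𝓝 x, y ∈ Z → LC Z g y := by
  filter_upwards [eventually_eventually_nhds.2 h] with y hy hyZ
  filter_upwards [hy] with z hz hzZ
  rw [hz hzZ, hy.self_of_nhds hyZ]

/-- the local alternative at a regular point -/
theorem local_alt {Z : Set X} {f g : X → ℂ} {p : X} (hf : HolN f p) (h0 : f p = 0)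
    (hd : mfderiv 𝓘(ℂ, Cm 2) 𝓘(ℂ) f p ≠ 0) (hZ : ∀ᶠ y in 𝓝 p, (y ∈ Z ↔ f y = 0))
    (hg : HolZ Z g p) (hn : ¬ LC Z g p) :
    (∀ᶠ y in 𝓝 p, y ∈ Z → ¬ LC Z g y) ∧ ∀ N ∈ 𝓝 p, g '' (N ∩ Z) ∈ 𝓝 (g p) := by
  obtain ⟨e, he1, he2, he3, he4, -, -, -⟩ := exists_coordM hf hd
  obtain ⟨ψ, hψ, hgψ⟩ := hg
  have hep : e p = (0, 0) := by rw [he2, h0]
  have hpZ : p ∈ Z := hZ.self_of_nhds.2 h0
  -- parametrization
  set j : ℂ → X := fun t => e.symm ((0 : ℂ), t) with hj
  have hj0 : j 0 = p := by
    show e.symm ((0 : ℂ), (0 : ℂ)) = p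
    rw [← hep, e.left_inv he1]
  have hjc0 : Continuous fun t : ℂ => ((0 : ℂ), t) := by fun_prop
  have htar : ∀ᶠ t in 𝓝 (0 : ℂ), ((0 : ℂ), t) ∈ e.target := by
    refine (hjc0.continuousAt (x := 0)).eventually (e.open_target.mem_nhds ?_)
    show ((0 : ℂ), (0 : ℂ)) ∈ e.target
    rw [← hep]
    exact e.map_source he1
  have hjt : Tendsto j (𝓝 0) (𝓝 p) := by
    have h1 := (e.continuousAt_symm (e.map_source he1)).tendsto
    rw [e.left_inv he1, hep] at h1
    exact h1.comp (hjc0.continuousAt (x := 0)).tendsto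
  have h1 : ∀ᶠ y in 𝓝 p, (y ∈ Z ↔ f y = 0) ∧ (y ∈ Z → g y = ψ y) ∧ HolN ψ y ∧ y ∈ e.source := by
    filter_upwards [hZ, hgψ, hψ.eventually, e.open_source.mem_nhds he1] with y h1 h2 h3 h4
    exact ⟨h1, h2, h3, h4⟩
  obtain ⟨r, hr, hrb⟩ := Metric.eventually_nhds_iff_ball.1 (htar.and
    (hjt.eventually (eventually_eventually_nhds.2 h1)))
  have hjZ : ∀ t ∈ ball (0 : ℂ) r, j t ∈ Z := by
    intro t ht
    have h2 := (hrb t ht).2.self_of_nhds
    rw [h2.1, ← he3 _ h2.2.2.2]
    show (e (e.symm ((0 : ℂ), t))).1 = 0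
    rw [e.right_inv (hrb t ht).1]
  have hFan : AnalyticOnNhd ℂ (fun t => ψ (j t)) (ball 0 r) := by
    intro t ht
    have h2 := (hrb t ht).2.self_of_nhds
    have h3 := (he4 _ h2.2.2.2 ψ).1 h2.2.2.1
    have h4 : e (j t) = ((0 : ℂ), t) := e.right_inv (hrb t ht).1
    rw [h4] at h3
    have h5 : AnalyticAt ℂ (fun t : ℂ => ((0 : ℂ), t)) t := analyticAt_const.prod analyticAt_id
    exact AnalyticAt.comp (g := ψ ∘ e.symm) (f := fun t : ℂ => ((0 : ℂ), t)) h3 h5
  have hgj : ∀ t ∈ ball (0 : ℂ) r, g (j t) = ψ (j t) := fun t ht =>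
    (hrb t ht).2.self_of_nhds.2.1 (hjZ t ht)
  -- points of `Z` near `p` are on the disc
  have hZj : ∀ᶠ y in 𝓝 p, y ∈ Z → (e y).2 ∈ ball (0 : ℂ) r ∧ j (e y).2 = y := by
    have h2 : Tendsto (fun y => (e y).2) (𝓝 p) (𝓝 0) := by
      have := (continuous_snd.continuousAt (x := e p)).tendsto.comp (e.continuousAt he1).tendsto
      rw [hep] at this
      exact this
    filter_upwards [h2.eventually (ball_mem_nhds 0 hr), h1] with y hy1 hy2 hyZ
    refine ⟨hy1, ?_⟩
    show e.symm ((0 : ℂ), (e y).2) = y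
    have h3 : (e y).1 = 0 := by rw [he3 _ hy2.2.2.2]; exact hy2.1.1 hyZ
    have h4 : ((0 : ℂ), (e y).2) = e y := by rw [← h3]
    rw [h4, e.left_inv hy2.2.2.2]
  -- nonconstancy
  have hnc : ∀ t ∈ ball (0 : ℂ) r, ¬ ∀ᶠ s in 𝓝 t, ψ (j s) = ψ (j t) := by
    intro t ht hcon
    apply hn
    have h2 := hFan.eqOn_of_preconnected_of_eventuallyEq (g := fun _ => ψ (j t))
      (fun _ _ => analyticAt_const) (convex_ball _ _).isPreconnected ht hcon
    filter_upwards [hZj] with y hy hyZ
    obtain ⟨h3, h4⟩ := hy hyZ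
    have h5 : ψ (j (e y).2) = ψ (j t) := h2 h3
    have h6 : ψ (j 0) = ψ (j t) := h2 (mem_ball_self hr)
    rw [← h4, ← hj0, hgj _ h3, hgj _ (mem_ball_self hr), h5, h6]
  constructor
  · filter_upwards [hZj] with y hy hyZ hLC
    obtain ⟨h3, h4⟩ := hy hyZ
    apply hnc _ h3
    have h5 : Tendsto j (𝓝 (e y).2) (𝓝 y) := by
      have h6 : ContinuousAt e.symm ((0 : ℂ), (e y).2) := e.continuousAt_symm (hrb _ h3).1
      have h7 := h6.tendsto.comp (hjc0.continuousAt (x := (e y).2)).tendsto
      have h8 : e.symm ((0 : ℂ), (e y).2) = y := h4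
      rw [h8] at h7
      exact h7
    filter_upwards [h5.eventually hLC, isOpen_ball.mem_nhds h3] with s hs hsb
    have h9 := hs (hjZ s hsb)
    rw [← hgj s hsb, ← hgj _ h3, h9, h4]
  · intro N hN
    have h2 : AnalyticAt ℂ (fun t => ψ (j t)) 0 := hFan 0 (mem_ball_self hr)
    rcases h2.eventually_constant_or_nhds_le_map_nhds with h3 | h3
    · exact absurd h3 (hnc 0 (mem_ball_self hr))
    · have h4 : (fun t => ψ (j t)) '' (ball 0 r ∩ j ⁻¹' N) ∈ 𝓝 (ψ (j 0)) := by
        refine h3 (image_mem_map (inter_mem (ball_mem_nhds 0 hr) (hjt hN)))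
      rw [← hgj 0 (mem_ball_self hr), hj0] at h4
      refine mem_of_superset h4 ?_
      rintro _ ⟨t, ⟨ht1, ht2⟩, rfl⟩
      exact ⟨j t, ⟨ht2, hjZ t ht1⟩, hgj t ht1⟩

theorem compl_sing_iff (D : EffDiv X) {p : X} : p ∈ D.supp \ Sing D ↔
    D.f p p = 0 ∧ mfderiv 𝓘(ℂ, Cm 2) 𝓘(ℂ) (D.f p) p ≠ 0 := by
  constructor
  · rintro ⟨h1, h2⟩
    exact ⟨h1, fun h => h2 ⟨h1, h⟩⟩
  · rintro ⟨h1, h2⟩
    exact ⟨h1, fun h => h2 h.2⟩

/-- Holomorphic functions on a compact irreducible curve are constant. -/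
theorem const_on_supp [CompactSpace X] (D : EffDiv X) (g : X → ℂ)
    (hg : ∀ x ∈ D.supp, HolZ D.supp g x) (hconn : IsPreconnected (D.supp \ Sing D))
    (hsing : (Sing D).Countable) (hdense : D.supp ⊆ closure (D.supp \ Sing D)) :
    ∃ c, ∀ z ∈ D.supp, g z = c := by
  have hZp : ∀ p, ∀ᶠ y in 𝓝 p, (y ∈ D.supp ↔ D.f p y = 0) := by
    intro p
    filter_upwards [mem_nhds D p] with y hy using mem_supp_iff D hy
  have halt : ∀ p ∈ D.supp \ Sing D, ¬ LC D.supp g p →
      (∀ᶠ y in 𝓝 p, y ∈ D.supp → ¬ LC D.supp g y) ∧ ∀ N ∈ 𝓝 p, g '' (N ∩ D.supp) ∈ 𝓝 (g p) := by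
    intro p hp hn
    have h1 := (compl_sing_iff D).1 hp
    exact local_alt (holN_f D p (D.mem p)) h1.1 h1.2 (hZp p) (hg p hp.1) hn
  rcases (D.supp \ Sing D).eq_empty_or_nonempty with hemp | ⟨p₀, hp₀⟩
  · refine ⟨0, fun z hz => ?_⟩
    have := hdense hz
    rw [hemp, closure_empty] at this
    exact absurd this (notMem_empty z)
  have hcont : ContinuousOn g D.supp := by
    intro x hx
    obtain ⟨ψ, hψ, he⟩ := hg x hx
    have h1 : ContinuousWithinAt ψ D.supp x := hψ.continuousAt.continuousWithinAt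
    refine h1.congr_of_eventuallyEq ?_ (he.self_of_nhds hx)
    exact eventually_nhdsWithin_iff.2 he
  -- locally constant everywhere or nowhere
  have hdich := isPreconnected_iff_subset_of_disjoint.1 hconn
    {y | ∀ᶠ z in 𝓝 y, z ∈ D.supp → LC D.supp g z}
    {y | ∀ᶠ z in 𝓝 y, z ∈ D.supp → ¬ LC D.supp g z}
    (isOpen_iff_mem_nhds.2 fun y hy => eventually_eventually_nhds.2 hy)
    (isOpen_iff_mem_nhds.2 fun y hy => eventually_eventually_nhds.2 hy) (by
      intro p hp
      by_cases h : LC D.supp g p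
      · exact Or.inl h.eventually
      · exact Or.inr (halt p hp h).1) (by
      ext p
      simp only [mem_inter_iff, mem_empty_iff_false, iff_false, not_and]
      intro hp h1 h2
      exact (Eventually.self_of_nhds h2) hp.1 ((Eventually.self_of_nhds h1) hp.1))
  rcases hdich with hall | hnone
  · -- constant on the regular part
    have h1 := isPreconnected_iff_subset_of_disjoint.1 hconn
      {y | ∀ᶠ z in 𝓝 y, z ∈ D.supp → g z = g p₀}
      {y | ∀ᶠ z in 𝓝 y, z ∈ D.supp → g z ≠ g p₀}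
      (isOpen_iff_mem_nhds.2 fun y hy => eventually_eventually_nhds.2 hy)
      (isOpen_iff_mem_nhds.2 fun y hy => eventually_eventually_nhds.2 hy) (by
        intro p hp
        have h2 : LC D.supp g p := (Eventually.self_of_nhds (hall hp)) hp.1
        by_cases h : g p = g p₀
        · left
          filter_upwards [h2] with z hz hzZ
          rw [hz hzZ, h]
        · right
          filter_upwards [h2] with z hz hzZ
          rw [hz hzZ]
          exact h) (by
        ext p
        simp only [mem_inter_iff, mem_empty_iff_false, iff_false, not_and]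
        intro hp h1 h2
        exact (Eventually.self_of_nhds h2) hp.1 ((Eventually.self_of_nhds h1) hp.1))
    have h2 : ∀ p ∈ D.supp \ Sing D, g p = g p₀ := by
      rcases h1 with h1 | h1
      · intro p hp
        exact (Eventually.self_of_nhds (h1 hp)) hp.1
      · exact absurd rfl ((Eventually.self_of_nhds (h1 hp₀)) hp₀.1)
    refine ⟨g p₀, fun z hz => ?_⟩
    obtain ⟨ψ, hψ, he⟩ := hg z hz
    rw [he.self_of_nhds hz]
    by_contra hne
    have h3 := hψ.continuousAt.eventually_ne hne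
    obtain ⟨y, hy, hy1, hy2⟩ := ((mem_closure_iff_frequently.1 (hdense hz)).and_eventually
      (h3.and he)).exists
    exact hy1 (by rw [← hy2 hy.1, h2 y hy])
  · -- open mapping
    exfalso
    set V := g '' (D.supp \ Sing D) with hV
    have hopen : IsOpen V := by
      rw [isOpen_iff_mem_nhds]
      rintro _ ⟨p, hp, rfl⟩
      have hn : ¬ LC D.supp g p := (Eventually.self_of_nhds (hnone hp)) hp.1
      have h1 := (halt p hp hn).2
      -- near `p` all points of the support are regular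
      have h2 : ∀ᶠ y in 𝓝 p, y ∈ D.supp → y ∈ D.supp \ Sing D := by
        have h3 := (compl_sing_iff D).1 hp
        have h4 : ∀ᶠ y in 𝓝 p, mfderiv 𝓘(ℂ, Cm 2) 𝓘(ℂ) (D.f p) y ≠ 0 := by
          have h5 := holN_f D p (D.mem p)
          have hps := mem_chart_source (Cm 2) p
          have h6 := (mfderiv_ne_zero_iff p hps h5.self).1 h3.2
          have h7 := ((holN_iff p hps).1 h5).fderiv.continuousAt.eventually_ne h6
          filter_upwards [(tendsto_chart p hps).eventually h7, h5.eventually,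
            (chartAt (Cm 2) p).open_source.mem_nhds hps] with y h8 h9 h10
          exact (mfderiv_ne_zero_iff p h10 h9.self).2 h8
        filter_upwards [h4, mem_nhds D p] with y hy1 hy2 hy3
        exact ⟨hy3, fun h => hy1 ((mem_sing_iff D hy2).1 h).2⟩
      refine mem_of_superset (h1 _ h2) ?_
      rintro _ ⟨y, ⟨hy1, hy2⟩, rfl⟩
      exact ⟨y, hy1 hy2, rfl⟩
    have hKc : IsCompact (g '' D.supp) :=
      (isClosed_supp D).isCompact.image_of_continuousOn hcont
    have hVK : V ⊆ g '' D.supp := image_mono sdiff_subset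
    refine frontier_not_countable hopen ⟨_, p₀, hp₀, rfl⟩ hKc hVK ?_
    refine (hsing.image g).mono ?_
    intro z hz
    rw [frontier, hopen.interior_eq] at hz
    obtain ⟨y, hy, rfl⟩ := (hKc.isClosed.closure_subset_iff.2 hVK) hz.1
    by_cases h : y ∈ Sing D
    · exact ⟨y, h, rfl⟩
    · exact absurd ⟨y, ⟨hy, h⟩, rfl⟩ hz.2

end Vale.Agent.P267.H815
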