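import Vale.Agent.P267.H815.Const
import Vale.Agent.P267.H399.Calc2
import Vale.Agent.P267.H439.DbarPoin

/-!
# P267, D4: `H⁰(𝒪_D) = ℂ` (helper815)

`I0 D`, `I1 D`, `I2 D`: the smooth forms of type `(0,q)` divisible by the local equations of `D`.
-/

open scoped Manifold ContDiff Topology
open Set Filter Metric
open Vale.Agent.P272.K

set_option linter.unusedSectionVars false

noncomputable section

namespace Vale.Agent.P267.H815

open FL (At0 At1 At2 Reg0 Reg1 Reg2 dbar0 dbar1 loc0 loc1 loc2 C2)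

variable {X : Type*} [TopologicalSpace X] [ChartedSpace (Cm 2) X]

/-- functions divisible by `D` -/
def I0 (D : EffDiv X) (φ : X → ℂ) : Prop :=
  ∀ x, ∃ b : X → ℂ, ∀ᶠ y in 𝓝 x, At0 ∞ 0 b y ∧ φ y = D.f x y * b y

/-- `(0,1)`-forms divisible by `D` -/
def I1 (D : EffDiv X) (α : X → Fin 2 → ℂ) : Prop :=
  ∀ x, ∃ b : X → Fin 2 → ℂ, ∀ᶠ y in 𝓝 x, At1 ∞ 0 b y ∧ α y = D.f x y • b y

/-- `(0,2)`-forms divisible by `D` -/
def I2 (D : EffDiv X) (β : X → ℂ) : Prop :=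
  ∀ x, ∃ b : X → ℂ, ∀ᶠ y in 𝓝 x, At2 ∞ 0 b y ∧ β y = D.f x y * b y

/-- local form: `∂̄Φ = F B` implies `Φ = Ψ + F u` with `Ψ` holomorphic -/
theorem local_split {z₀ : C2} {F Φ : C2 → ℂ} {B : Fin 2 → C2 → ℂ} (hF : AnalyticAt ℂ F z₀)
    (hne : ∀ᶠ w in 𝓝 z₀, ∃ᶠ z in 𝓝 w, F z ≠ 0) {U : Set C2} (hU : IsOpen U) (hz₀ : z₀ ∈ U)
    (hΦ : ContDiffOn ℝ ∞ Φ U) (hB : ∀ i, ContDiffOn ℝ ∞ (B i) U)
    (h : ∀ z ∈ U, ∀ i, FL.dzb i Φ z = F z * B i z) :
    ∃ Ψ u : C2 → ℂ, AnalyticAt ℂ Ψ z₀ ∧ ContDiff ℝ ∞ u ∧ ∀ᶠ z in 𝓝 z₀, Φ z = Ψ z + F z * u z := by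
  obtain ⟨W, hW, hWo, hz₀W⟩ := _root_.eventually_nhds_iff.1
    ((hF.eventually_analyticAt.and hne).and (hU.mem_nhds hz₀))
  have hWU : W ⊆ U := fun z hz => (hW z hz).2
  have hcl : ∀ z ∈ W, FL.dzb 0 (B 1) z = FL.dzb 1 (B 0) z := by
    have h1 : ∀ z ∈ W, F z * FL.dzb 0 (B 1) z = F z * FL.dzb 1 (B 0) z := by
      intro z hz
      have hFz : DifferentiableAt ℂ F z := (hW z hz).1.1.differentiableAt
      have hd : ∀ i, DifferentiableAt ℝ (B i) z := fun i =>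
        ((hB i).contDiffAt (hU.mem_nhds (hWU hz))).differentiableAt (by simp)
      have h2 : ∀ i j, FL.dzb j (FL.dzb i Φ) z = F z * FL.dzb j (B i) z := by
        intro i j
        have h3 : FL.dzb i Φ =ᶠ[𝓝 z] fun y => F y * B i y := by
          filter_upwards [hU.mem_nhds (hWU hz)] with y hy using h y hy i
        rw [FL.dzb_congr h3, FL.dzb_mul (hFz.restrictScalars ℝ) (hd i), FL.dzb_of_hol hFz]
        ring
      rw [← h2 1 0, ← h2 0 1]
      exact FL.dzb_dzb_comm (by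
        exact_mod_cast contDiffAt_infty.1 (hΦ.contDiffAt (hU.mem_nhds (hWU hz))) 2) 0 1
    intro z hz
    have hc : ∀ i j, ContinuousAt (FL.dzb j (B i)) z := fun i j =>
      (FL.contDiffAt_dzb (m := 0) (n := ∞) ((hB i).contDiffAt (hU.mem_nhds (hWU hz)))
        (by simp) j).continuousAt
    refine eq_of_mul_eq (f := F) (hc 1 0) (hc 0 1) (hW z hz).1.2 ?_
    filter_upwards [hWo.mem_nhds hz] with y hy
    rw [mul_comm, h1 y hy, mul_comm]
  obtain ⟨V, hVo, hzV, hVW, u, hu, hu'⟩ := Vale.Agent.P267.H439.dbar_poincare hWo hz₀W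
    (f := B) (fun i => (hB i).mono hWU) hcl
  refine ⟨fun z => Φ z - F z * u z, u, ?_, hu, Eventually.of_forall fun z => by ring⟩
  refine Vale.Agent.P281.MF.analyticAt_of_differentiableOn hVo ?_ hzV
  intro z hz
  have hFz : DifferentiableAt ℂ F z := (hW z (hVW hz)).1.1.differentiableAt
  have hΦz : DifferentiableAt ℝ Φ z :=
    (hΦ.contDiffAt (hU.mem_nhds (hWU (hVW hz)))).differentiableAt (by simp)
  have huz : DifferentiableAt ℝ u z := hu.differentiable (by simp) z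
  have hFu : DifferentiableAt ℝ (fun y => F y * u y) z := (hFz.restrictScalars ℝ).mul huz
  refine ((FL.differentiableAt_complex_iff (hΦz.fun_sub hFu)).2 fun i => ?_).differentiableWithinAt
  rw [FL.dzb_sub hΦz hFu, h z (hWU (hVW hz)) i, FL.dzb_mul (hFz.restrictScalars ℝ) huz,
    FL.dzb_of_hol hFz, hu' z hz i]
  ring

variable [IsManifold 𝓘(ℂ, Cm 2) ω X]

theorem frequently_chart (x : X) {y : X} (hy : y ∈ (chartAt (Cm 2) x).source) {p : X → Prop} :
    (∃ᶠ w in 𝓝 (chartAt (Cm 2) x y), p ((chartAt (Cm 2) x).symm w)) ↔ ∃ᶠ z in 𝓝 y, p z := by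
  rw [Filter.Frequently, Filter.Frequently, eventually_chart_iff x hy (p := fun z => ¬ p z)]

theorem loc0_zero_eq (e : FL.Ch X) (φ : X → ℂ) : loc0 0 e φ = φ ∘ e.symm := by
  funext z
  simp [loc0]

theorem loc1_smul_eq (e : FL.Ch X) (f : X → ℂ) (b : X → Fin 2 → ℂ) (z : C2) (i : Fin 2) :
    loc1 0 e (fun y => f y • b y) z i = f (e.symm z) * loc1 0 e b z i := by
  simp only [loc1, zpow_zero, Pi.smul_apply, smul_eq_mul, Finset.mul_sum]
  refine Finset.sum_congr rfl fun p _ => ?_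
  ring

/-- `∂̄φ` divisible by `f` implies `φ = ψ + f b` near `x`, `ψ` holomorphic, `b` smooth -/
theorem exists_split {f φ : X → ℂ} {a : X → Fin 2 → ℂ} {x : X} (hf : HolN f x)
    (hne : ∀ᶠ y in 𝓝 x, ∃ᶠ z in 𝓝 y, f z ≠ 0) (hφ : ∀ᶠ y in 𝓝 x, At0 ∞ 0 φ y)
    (h : ∀ᶠ y in 𝓝 x, At1 ∞ 0 a y ∧ dbar0 0 φ y = f y • a y) :
    ∃ ψ b : X → ℂ, HolN ψ x ∧ ∀ᶠ y in 𝓝 x, At0 ∞ 0 b y ∧ φ y = ψ y + f y * b y := by
  set e := chartAt (Cm 2) x with he
  have hx : x ∈ e.source := mem_chart_source (Cm 2) x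
  have heA : e ∈ atlas (Cm 2) X := chart_mem_atlas (Cm 2) x
  have hF : AnalyticAt ℂ (f ∘ e.symm) (e x) := (holN_iff x hx).1 hf
  have hne' : ∀ᶠ w in 𝓝 (e x), ∃ᶠ z in 𝓝 w, (f ∘ e.symm) z ≠ 0 := by
    have h1 := (eventually_chart_iff x hx (p := fun y => ∃ᶠ z in 𝓝 y, f z ≠ 0)).2 hne
    filter_upwards [h1, e.open_target.mem_nhds (e.map_source hx)] with w hw hwt
    have h2 := (frequently_chart x (e.map_target hwt) (p := fun z => f z ≠ 0)).2 hw
    rwa [e.right_inv hwt] at h2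
  have h2 := (eventually_chart_iff x hx (p := fun y => (At1 ∞ 0 a y ∧ dbar0 0 φ y = f y • a y) ∧
    At0 ∞ 0 φ y)).2 (h.and hφ)
  obtain ⟨U, hU, hUo, hxU⟩ := _root_.eventually_nhds_iff.1
    (h2.and (e.open_target.mem_nhds (e.map_source hx)))
  have hB : ∀ i, ContDiffOn ℝ ∞ (fun z => loc1 0 e a z i) U := by
    intro i z hz
    have h3 := (hU z hz).1.1.1.chart heA (e.map_target (hU z hz).2)
    rw [e.right_inv (hU z hz).2] at h3
    exact (contDiffAt_pi.1 h3 i).contDiffWithinAt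
  have hΦ : ContDiffOn ℝ ∞ (φ ∘ e.symm) U := by
    intro z hz
    have h3 := (hU z hz).1.2.chart heA (e.map_target (hU z hz).2)
    rw [e.right_inv (hU z hz).2, loc0_zero_eq] at h3
    exact h3.contDiffWithinAt
  obtain ⟨Ψ, u, hΨ, hu, hsp⟩ := local_split hF hne' hUo hxU hΦ hB (fun z hz i => by
    have hd : DifferentiableAt ℝ (loc0 0 e φ) z := by
      rw [loc0_zero_eq]
      exact (hΦ.contDiffAt (hUo.mem_nhds hz)).differentiableAt (by simp)
    have h3 := FL.loc1_dbar0 (κ := 0) heA (hU z hz).2 hd i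
    rw [loc0_zero_eq] at h3
    rw [← h3]
    have h4 : loc1 0 e (dbar0 0 φ) z i = loc1 0 e (fun y => f y • a y) z i := by
      simp only [loc1]
      rw [(hU z hz).1.1.2]
    rw [h4, loc1_smul_eq]
    rfl)
  refine ⟨fun y => Ψ (e y), fun y => u (e y), holN_of_analytic x hx hΨ, ?_⟩
  have h6 : ∀ᶠ y in 𝓝 x, φ y = Ψ (e y) + f y * u (e y) := by
    rw [← eventually_chart_iff x hx]
    filter_upwards [hsp, e.open_target.mem_nhds (e.map_source hx)] with w hw hwt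
    rw [e.right_inv hwt]
    exact hw
  filter_upwards [h6, e.open_source.mem_nhds hx] with y hy hys
  refine ⟨?_, hy⟩
  refine FL.at0_of_chart heA hys ?_
  rw [loc0_zero_eq]
  refine (hu.contDiffAt (x := e y)).congr_of_eventuallyEq ?_
  filter_upwards [e.open_target.mem_nhds (e.map_source hys)] with w hw
  show u (e (e.symm w)) = u w
  rw [e.right_inv hw]

/-- quotients of holomorphic functions extend if they are bounded near a dense subset of the zeros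
of the denominator -/
theorem extendM {Num Den : X → ℂ} {x : X} (hN : HolN Num x)
    (hD : HolN Den x) (hne : ∃ᶠ z in 𝓝 x, Den z ≠ 0)
    (hb : ∀ᶠ z in 𝓝 x, Den z = 0 → z ∈ closure {y | Den y = 0 ∧
      ∃ C : ℝ, ∀ᶠ w in 𝓝 y, ‖Num w‖ ≤ C * ‖Den w‖}) :
    ∃ Q : X → ℂ, HolN Q x ∧ ∀ᶠ z in 𝓝 x, Num z = Den z * Q z := by
  set e := chartAt (Cm 2) x with he
  have hx : x ∈ e.source := mem_chart_source (Cm 2) x
  have hne' : ∃ᶠ w in 𝓝 (e x), (Den ∘ e.symm) w ≠ 0 :=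
    (frequently_chart x hx (p := fun z => Den z ≠ 0)).2 hne
  obtain ⟨Q, hQ, hQe⟩ := Vale.Agent.P281.MF.extend_quotient (Num := Num ∘ e.symm)
    (Den := Den ∘ e.symm) (x₀ := e x) ((holN_iff x hx).1 hN) ((holN_iff x hx).1 hD) (by
      intro h
      exact hne' (h.mono fun w hw h' => h' hw)) (by
      have h1 := (eventually_chart_iff x hx (p := fun z => Den z = 0 → z ∈ closure {y | Den y = 0 ∧
        ∃ C : ℝ, ∀ᶠ w in 𝓝 y, ‖Num w‖ ≤ C * ‖Den w‖})).2 hb
      filter_upwards [h1, e.open_target.mem_nhds (e.map_source hx)] with w hw hwt hw0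
      have h1 := mem_closure_iff_frequently.1 (hw hw0)
      rw [mem_closure_iff_frequently]
      have hws : e.symm w ∈ e.source := e.map_target hwt
      have h2 : Tendsto e (𝓝 (e.symm w)) (𝓝 w) := by
        have := (e.continuousAt hws).tendsto
        rwa [e.right_inv hwt] at this
      refine h2.frequently ?_
      refine (h1.and_eventually (e.open_source.mem_nhds hws)).mono ?_
      rintro y ⟨⟨hy0, C, hC⟩, hys⟩
      refine ⟨?_, C, ?_⟩
      · show Den (e.symm (e y)) = 0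
        rw [e.left_inv hys]
        exact hy0
      · exact (tendsto_symm x hys).eventually hC)
  refine ⟨fun z => Q (e z), holN_of_analytic x hx hQ, ?_⟩
  rw [← eventually_chart_iff x hx]
  filter_upwards [hQe, e.open_target.mem_nhds (e.map_source hx)] with w hw hwt
  rw [e.right_inv hwt]
  exact hw

/-- a holomorphic function vanishing on the support is divisible by a reduced local equation -/
theorem div_of_vanish (D : EffDiv X) (hdense : D.supp ⊆ closure (D.supp \ Sing D)) {g : X → ℂ}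
    {x : X} (hg : HolN g x) (hv : ∀ᶠ y in 𝓝 x, y ∈ D.supp → g y = 0) :
    ∃ Q : X → ℂ, HolN Q x ∧ ∀ᶠ z in 𝓝 x, g z = D.f x z * Q z := by
  refine extendM hg (holN_f D x (D.mem x)) (D.ne x x (D.mem x)) ?_
  filter_upwards [mem_nhds D x, eventually_eventually_nhds.2 (mem_nhds D x),
    eventually_eventually_nhds.2 hv, hg.eventually.eventually_nhds] with z hz hz1 hz2 hz3 hz0
  have hzs : z ∈ D.supp := (mem_supp_iff D hz).2 hz0
  have h1 := mem_closure_iff_frequently.1 (hdense hzs)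
  rw [mem_closure_iff_frequently]
  refine (h1.and_eventually ((hz1.eventually_nhds.and hz2.eventually_nhds).and hz3)).mono ?_
  rintro y ⟨hy, ⟨hy1, hy2⟩, hy3⟩
  have hyU : y ∈ D.U x := hy1.self_of_nhds
  refine ⟨(mem_supp_iff D hyU).1 hy.1, ?_⟩
  have h2 : mfderiv 𝓘(ℂ, Cm 2) 𝓘(ℂ) (D.f x) y ≠ 0 := fun h0 =>
    hy.2 ((mem_sing_iff D hyU).2 ⟨(mem_supp_iff D hyU).1 hy.1, h0⟩)
  refine bound_of_vanish (holN_f D x hyU) ((mem_supp_iff D hyU).1 hy.1) h2 hy3 ?_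
  filter_upwards [hy1, hy2] with w hw1 hw2 hw3
  exact hw2 ((mem_supp_iff D hw1).2 hw3)

theorem HolN.at0 {f : X → ℂ} {x : X} (h : HolN f x) : At0 ∞ 0 f x := by
  show ContDiffAt ℝ ∞ (loc0 0 (chartAt C2 x) f) (chartAt C2 x x)
  rw [loc0_zero_eq]
  exact (h.analyticAt.contDiffAt (n := ∞)).restrict_scalars ℝ

/-- **`H⁰(𝒪_D) = ℂ`**: functions which are holomorphic modulo `D` are constant modulo `D`. -/
theorem h0_const [CompactSpace X] (D : EffDiv X) (hconn : IsPreconnected (D.supp \ Sing D))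
    (hsing : (Sing D).Countable) (hdense : D.supp ⊆ closure (D.supp \ Sing D)) {φ : X → ℂ}
    (hφ : Reg0 ∞ 0 φ) (h : I1 D (dbar0 0 φ)) : ∃ c : ℂ, I0 D fun x => φ x - c := by
  have hsplit : ∀ x, ∃ ψ b : X → ℂ, HolN ψ x ∧
      ∀ᶠ y in 𝓝 x, At0 ∞ 0 b y ∧ φ y = ψ y + D.f x y * b y := by
    intro x
    obtain ⟨a, ha⟩ := h x
    refine exists_split (holN_f D x (D.mem x)) ?_ (Eventually.of_forall fun y => hφ.at y) ha
    filter_upwards [mem_nhds D x] with y hy using D.ne x y hy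
  obtain ⟨c, hc⟩ := const_on_supp D φ (fun x _ => by
    obtain ⟨ψ, b, hψ, hb⟩ := hsplit x
    refine ⟨ψ, hψ, ?_⟩
    filter_upwards [hb, mem_nhds D x] with y hy hyU hys
    rw [hy.2, (mem_supp_iff D hyU).1 hys, zero_mul, add_zero]) hconn hsing hdense
  refine ⟨c, fun x => ?_⟩
  obtain ⟨ψ, b, hψ, hb⟩ := hsplit x
  have h1 : HolN (fun y => ψ y - c) x := hψ.sub (holN_const c x)
  obtain ⟨Q, hQ, hQe⟩ := div_of_vanish D hdense h1 (by
    filter_upwards [hb, mem_nhds D x] with y hy hyU hys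
    have h2 := hc y hys
    rw [hy.2, (mem_supp_iff D hyU).1 hys, zero_mul, add_zero] at h2
    rw [h2, sub_self])
  refine ⟨fun y => Q y + b y, ?_⟩
  filter_upwards [hb, hQe, hQ.eventually] with y hy hy2 hy3
  refine ⟨FL.At0.add hy3.at0 hy.1, ?_⟩
  rw [hy.2, mul_add, ← hy2]
  ring

end Vale.Agent.P267.H815
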