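import Vale.Agent.P267.Statement
import Vale.Agent.P281.MF.Ext2

/-!
# P267, D4: germs of holomorphic functions on a complex surface (helper815)
-/

open scoped Manifold ContDiff Topology
open Set Filter Metric
open Vale.Agent.P272.K

noncomputable section

namespace Vale.Agent.P267.H815

variable {X : Type*} [TopologicalSpace X] [ChartedSpace (Cm 2) X]

/-- `f` is holomorphic near `x` -/
def HolN (f : X → ℂ) (x : X) : Prop := ∀ᶠ y in 𝓝 x, MDifferentiableAt 𝓘(ℂ, Cm 2) 𝓘(ℂ) f y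

theorem HolN.self {f : X → ℂ} {x : X} (h : HolN f x) : MDifferentiableAt 𝓘(ℂ, Cm 2) 𝓘(ℂ) f x :=
  h.self_of_nhds

theorem HolN.eventually {f : X → ℂ} {x : X} (h : HolN f x) : ∀ᶠ y in 𝓝 x, HolN f y :=
  eventually_eventually_nhds.2 h

theorem holN_of_on {f : X → ℂ} {U : Set X} (hU : IsOpen U)
    (h : MDifferentiableOn 𝓘(ℂ, Cm 2) 𝓘(ℂ) f U) {x : X} (hx : x ∈ U) : HolN f x := by
  filter_upwards [hU.mem_nhds hx] with y hy
  exact (h y hy).mdifferentiableAt (hU.mem_nhds hy)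

theorem HolN.continuousAt {f : X → ℂ} {x : X} (h : HolN f x) : ContinuousAt f x :=
  h.self.continuousAt

theorem HolN.congr {f g : X → ℂ} {x : X} (h : HolN f x) (he : g =ᶠ[𝓝 x] f) : HolN g x := by
  filter_upwards [h, eventually_eventually_nhds.2 he] with y hy hy'
  exact hy.congr_of_eventuallyEq hy'

theorem holN_const (c : ℂ) (x : X) : HolN (fun _ => c) x :=
  Eventually.of_forall fun _ => mdifferentiableAt_const

theorem tendsto_symm (x : X) {y : X} (hy : y ∈ (chartAt (Cm 2) x).source) :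
    Tendsto (chartAt (Cm 2) x).symm (𝓝 (chartAt (Cm 2) x y)) (𝓝 y) := by
  have := ((chartAt (Cm 2) x).continuousAt_symm ((chartAt (Cm 2) x).map_source hy)).tendsto
  rwa [(chartAt (Cm 2) x).left_inv hy] at this

theorem tendsto_chart (x : X) {y : X} (hy : y ∈ (chartAt (Cm 2) x).source) :
    Tendsto (chartAt (Cm 2) x) (𝓝 y) (𝓝 (chartAt (Cm 2) x y)) :=
  (chartAt (Cm 2) x).continuousAt hy

/-- a property holds near `y` iff it holds near `chart y` in the chart -/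
theorem eventually_chart_iff (x : X) {y : X} (hy : y ∈ (chartAt (Cm 2) x).source) {p : X → Prop} :
    (∀ᶠ w in 𝓝 (chartAt (Cm 2) x y), p ((chartAt (Cm 2) x).symm w)) ↔ ∀ᶠ z in 𝓝 y, p z := by
  constructor
  · intro h
    filter_upwards [(tendsto_chart x hy).eventually h,
      (chartAt (Cm 2) x).open_source.mem_nhds hy] with z hz hzs
    rwa [(chartAt (Cm 2) x).left_inv hzs] at hz
  · intro h
    exact (tendsto_symm x hy).eventually h

theorem mdiffAt_iff [IsManifold 𝓘(ℂ, Cm 2) ω X] {f : X → ℂ} (x : X) {y : X}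
    (hy : y ∈ (chartAt (Cm 2) x).source) :
    MDifferentiableAt 𝓘(ℂ, Cm 2) 𝓘(ℂ) f y ↔
      DifferentiableAt ℂ (f ∘ (chartAt (Cm 2) x).symm) (chartAt (Cm 2) x y) := by
  have : IsManifold 𝓘(ℂ, Cm 2) 1 X := IsManifold.of_le (n := ω) le_top
  rw [mdifferentiableAt_iff_source_of_mem_source (x := x) (by simpa using hy)]
  simp only [modelWithCornersSelf_coe, range_id, mdifferentiableWithinAt_univ,
    mdifferentiableAt_iff_differentiableAt, mfld_simps]

theorem holN_iff [IsManifold 𝓘(ℂ, Cm 2) ω X] {f : X → ℂ} (x : X) {y : X}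
    (hy : y ∈ (chartAt (Cm 2) x).source) :
    HolN f y ↔ AnalyticAt ℂ (f ∘ (chartAt (Cm 2) x).symm) (chartAt (Cm 2) x y) := by
  have key : HolN f y ↔ ∀ᶠ w in 𝓝 (chartAt (Cm 2) x y),
      DifferentiableAt ℂ (f ∘ (chartAt (Cm 2) x).symm) w := by
    have h1 : ∀ᶠ z in 𝓝 y, z ∈ (chartAt (Cm 2) x).source :=
      (chartAt (Cm 2) x).open_source.mem_nhds hy
    have h2 : HolN f y ↔ ∀ᶠ z in 𝓝 y, DifferentiableAt ℂ (f ∘ (chartAt (Cm 2) x).symm)
        (chartAt (Cm 2) x z) := by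
      refine eventually_congr ?_
      filter_upwards [h1] with z hz
      exact mdiffAt_iff x hz
    rw [h2, ← eventually_chart_iff x hy]
    refine eventually_congr ?_
    filter_upwards [(chartAt (Cm 2) x).open_target.mem_nhds ((chartAt (Cm 2) x).map_source hy)]
      with w hw
    rw [(chartAt (Cm 2) x).right_inv hw]
  rw [key]
  constructor
  · intro h
    obtain ⟨U, hU, hUo, hyU⟩ := _root_.eventually_nhds_iff.1 h
    exact Vale.Agent.P281.MF.analyticAt_of_differentiableOn hUo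
      (fun w hw => (hU w hw).differentiableWithinAt) hyU
  · intro h
    filter_upwards [h.eventually_analyticAt] with w hw using hw.differentiableAt

theorem HolN.analyticAt [IsManifold 𝓘(ℂ, Cm 2) ω X] {f : X → ℂ} {x : X} (h : HolN f x) :
    AnalyticAt ℂ (f ∘ (chartAt (Cm 2) x).symm) (chartAt (Cm 2) x x) :=
  (holN_iff x (mem_chart_source _ x)).1 h

theorem holN_of_analytic [IsManifold 𝓘(ℂ, Cm 2) ω X] {g : Cm 2 → ℂ} (x : X) {y : X}
    (hy : y ∈ (chartAt (Cm 2) x).source) (hg : AnalyticAt ℂ g (chartAt (Cm 2) x y)) :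
    HolN (fun z => g (chartAt (Cm 2) x z)) y := by
  rw [holN_iff x hy]
  refine hg.congr ?_
  filter_upwards [(chartAt (Cm 2) x).open_target.mem_nhds ((chartAt (Cm 2) x).map_source hy)]
    with w hw
  simp [(chartAt (Cm 2) x).right_inv hw]

section ops

variable [IsManifold 𝓘(ℂ, Cm 2) ω X] {f g : X → ℂ} {x : X}

theorem HolN.mul (hf : HolN f x) (hg : HolN g x) : HolN (fun y => f y * g y) x := by
  rw [holN_iff x (mem_chart_source _ x)] at *
  exact hf.mul hg

theorem HolN.add (hf : HolN f x) (hg : HolN g x) : HolN (fun y => f y + g y) x := by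
  rw [holN_iff x (mem_chart_source _ x)] at *
  exact hf.add hg

theorem HolN.sub (hf : HolN f x) (hg : HolN g x) : HolN (fun y => f y - g y) x := by
  rw [holN_iff x (mem_chart_source _ x)] at *
  exact hf.sub hg

theorem HolN.neg (hf : HolN f x) : HolN (fun y => -f y) x := by
  rw [holN_iff x (mem_chart_source _ x)] at *
  exact hf.neg

theorem HolN.inv (hf : HolN f x) (h0 : f x ≠ 0) : HolN (fun y => (f y)⁻¹) x := by
  rw [holN_iff x (mem_chart_source _ x)] at *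
  refine AnalyticAt.inv hf ?_
  simpa [(chartAt (Cm 2) x).left_inv (mem_chart_source _ x)] using h0

theorem HolN.div (hf : HolN f x) (hg : HolN g x) (h0 : g x ≠ 0) : HolN (fun y => f y / g y) x := by
  simp only [div_eq_mul_inv]
  exact hf.mul (hg.inv h0)

theorem HolN.pow (hf : HolN f x) (n : ℕ) : HolN (fun y => f y ^ n) x := by
  rw [holN_iff x (mem_chart_source _ x)] at *
  exact hf.pow n

end ops

/-- the differential in a chart -/
theorem mfderiv_eq [IsManifold 𝓘(ℂ, Cm 2) ω X] {f : X → ℂ} (x : X) {y : X}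
    (hy : y ∈ (chartAt (Cm 2) x).source) (hf : MDifferentiableAt 𝓘(ℂ, Cm 2) 𝓘(ℂ) f y) :
    mfderiv 𝓘(ℂ, Cm 2) 𝓘(ℂ) f y = (fderiv ℂ (f ∘ (chartAt (Cm 2) x).symm)
      (chartAt (Cm 2) x y)).comp (mfderiv 𝓘(ℂ, Cm 2) 𝓘(ℂ, Cm 2) (chartAt (Cm 2) x) y) := by
  have : IsManifold 𝓘(ℂ, Cm 2) 1 X := IsManifold.of_le (n := ω) le_top
  have h1 : MDifferentiableAt 𝓘(ℂ, Cm 2) 𝓘(ℂ, Cm 2) (chartAt (Cm 2) x) y :=
    mdifferentiableAt_atlas (chart_mem_atlas _ x) hy
  have h2 : DifferentiableAt ℂ (f ∘ (chartAt (Cm 2) x).symm) (chartAt (Cm 2) x y) :=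
    (mdiffAt_iff x hy).1 hf
  have h3 : f =ᶠ[𝓝 y] (f ∘ (chartAt (Cm 2) x).symm) ∘ (chartAt (Cm 2) x) := by
    filter_upwards [(chartAt (Cm 2) x).open_source.mem_nhds hy] with z hz
    simp [(chartAt (Cm 2) x).left_inv hz]
  rw [h3.mfderiv_eq, mfderiv_comp y h2.mdifferentiableAt h1, mfderiv_eq_fderiv]
  rfl

theorem mfderiv_ne_zero_iff [IsManifold 𝓘(ℂ, Cm 2) ω X] {f : X → ℂ} (x : X) {y : X}
    (hy : y ∈ (chartAt (Cm 2) x).source) (hf : MDifferentiableAt 𝓘(ℂ, Cm 2) 𝓘(ℂ) f y) :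
    mfderiv 𝓘(ℂ, Cm 2) 𝓘(ℂ) f y ≠ 0 ↔
      fderiv ℂ (f ∘ (chartAt (Cm 2) x).symm) (chartAt (Cm 2) x y) ≠ 0 := by
  have : IsManifold 𝓘(ℂ, Cm 2) 1 X := IsManifold.of_le (n := ω) le_top
  rw [mfderiv_eq x hy hf, not_iff_not]
  obtain ⟨e, he⟩ := isInvertible_mfderiv_extChartAt (I := 𝓘(ℂ, Cm 2)) (x := x) (y := y)
    (by simpa using hy)
  have key : ∀ (T : Cm 2 →L[ℂ] ℂ) (A : Cm 2 →L[ℂ] Cm 2) (e : Cm 2 ≃L[ℂ] Cm 2)
      (_ : (e : Cm 2 →L[ℂ] Cm 2) = A), T.comp A = 0 ↔ T = 0 := by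
    intro T A e h
    constructor
    · intro h0
      ext v
      have h1 : (T.comp A) (e.symm v) = 0 := by rw [h0]; rfl
      rw [← h] at h1
      simpa using h1
    · intro h0
      rw [h0]
      rfl
  exact key _ _ e he

end Vale.Agent.P267.H815
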