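import Vale.Agent.P267.H815.Add

/-!
# P267, package CURV-C6 / NEF-GLUE (helper815): the canonical bundle is nef

`X` minimal, compact, connected, `p_g = 0`, intersection form negative definite, Riemann-Roch:
`K·L ≥ 0` for every holomorphic line bundle with a nonzero holomorphic section.
-/

set_option linter.unusedSectionVars false

open scoped Manifold ContDiff ComplexConjugate Matrix Topology
open Set Filter MeasureTheory

noncomputable section

namespace Vale.Agent.P267.H815

open Vale.Agent.P267.FL Vale.Agent.P267.H757 Vale.Agent.P267.H332 Vale.Agent.P267.H682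
open Vale.Agent.P267.RR (H0 mem_H0 chi OX isec IsCanon FiniteStmt SerreStmt RRStmt)

variable {X : Type} [TopologicalSpace X] [ChartedSpace C2 X] [IsManifold 𝓘(ℂ, C2) ω X]
variable {ι : Type} [Fintype ι] [DecidableEq ι] {ι' : Type} [Fintype ι'] [DecidableEq ι']

/-- the intersection form is negative definite -/
def NegDef (X : Type) [TopologicalSpace X] [ChartedSpace C2 X] : Prop :=
  ∀ F : TwoF X, F.Smooth → F.Real → F.Closed → (FL.intX (F.wedge F)).re ≤ 0 ∧
    ((FL.intX (F.wedge F)).re = 0 → ∃ A : OneF X, A.Smooth ∧ A.d = F)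

theorem curv_dual (L : LB X ι) : L.dual.curv = (-1 : ℂ) • L.curv :=
  twoF_ext' (fun x => by simp [LB.curv, LB.F20_dual])
    (fun x => by ext i j; simp [LB.curv, LB.F11_dual]) (fun x => by simp [LB.curv, LB.F02_dual])

theorem smul_wedge (c : ℂ) (F G : TwoF X) : (c • F).wedge G = fun x => c * F.wedge G x := by
  funext x
  simp only [TwoF.wedge, TwoF.f20_smul, TwoF.f11_smul, TwoF.f02_smul, Pi.smul_apply,
    Matrix.smul_apply, smul_eq_mul]
  ring

section compact

variable [CompactSpace X] [T2Space X]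

theorem intX_smul_wedge (c : ℂ) {F G : TwoF X} (hF : F.Smooth) (hG : G.Smooth) :
    FL.intX ((c • F).wedge G) = c * FL.intX (F.wedge G) := by
  rw [smul_wedge, intAx.smul c _ (reg2_wedge hF hG) (hcs _)]

theorem isec_dual_left (L : LB X ι) (L' : LB X ι') : isec L.dual L' = -isec L L' := by
  rw [isec, isec, curv_dual, intX_smul_wedge _ L.curv_smooth L'.curv_smooth]
  ring

theorem isec_comm (L : LB X ι) (L' : LB X ι') : isec L L' = isec L' L := by
  rw [isec, isec, wedge_comm]

theorem isec_dual_dual (L : LB X ι) : isec L.dual L.dual = isec L L := by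
  rw [isec_dual_left, isec_comm, isec_dual_left, neg_neg]

/-- negativity: `L·L < 0` if `L·K ≠ 0` -/
theorem isec_neg (hneg : NegDef X) (L : LB X ι) (L' : LB X ι') (h : isec L L' ≠ 0) :
    (isec L L).re < 0 := by
  set F : TwoF X := Complex.I • L.curv with hF
  have hFs : F.Smooth := TwoF_smooth_smul _ L.curv_smooth
  have hFc : F.Closed := TwoF_closed_smul _ L.curv_smooth L.curv_closed
  have hFr : F.Real := by
    intro x
    refine ⟨?_, fun i j => ?_⟩
    · simp only [hF, TwoF.f20_smul, TwoF.f02_smul, Pi.smul_apply, smul_eq_mul, map_mul,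
        Complex.conj_I]
      change Complex.I * L.F20 x = -Complex.I * conj (L.F02 x)
      rw [L.F20_eq_neg_conj]
      ring
    · simp only [hF, TwoF.f11_smul, Pi.smul_apply, Matrix.smul_apply, smul_eq_mul, map_mul,
        Complex.conj_I]
      change Complex.I * L.F11 x j i = -(-Complex.I * conj (L.F11 x i j))
      rw [L.F11_swap]
      ring
  have e1 : FL.intX (F.wedge F) = -FL.intX (L.curv.wedge L.curv) := by
    rw [hF, intX_smul_wedge _ L.curv_smooth hFs, wedge_comm, hF,
      intX_smul_wedge _ L.curv_smooth L.curv_smooth, ← mul_assoc, Complex.I_mul_I, neg_one_mul]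
  have hpi : 0 < Real.pi := Real.pi_pos
  have e2 : FL.intX (F.wedge F) = ((4 * Real.pi ^ 2 : ℝ) : ℂ) * isec L L := by
    have hpi' : (Real.pi : ℂ) ≠ 0 := Complex.ofReal_ne_zero.2 hpi.ne'
    rw [e1, isec]
    push_cast
    field_simp
  have e3 : (FL.intX (F.wedge F)).re = 4 * Real.pi ^ 2 * (isec L L).re := by
    rw [e2, Complex.re_ofReal_mul]
  obtain ⟨h1, h2⟩ := hneg F hFs hFr hFc
  rcases h1.lt_or_eq with h3 | h3
  · rw [e3] at h3
    by_contra h4
    have h5 : 0 ≤ 4 * Real.pi ^ 2 * (isec L L).re := mul_nonneg (by positivity) (not_lt.1 h4)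
    linarith
  · exfalso
    obtain ⟨A, hA, hAF⟩ := h2 h3
    have h4 : FL.intX (F.wedge L'.curv) = 0 := by
      rw [← hAF]
      exact stokes hA L'.curv_smooth L'.curv_closed
    rw [hF, intX_smul_wedge _ L.curv_smooth L'.curv_smooth] at h4
    refine h ?_
    rw [isec, (mul_eq_zero.1 h4).resolve_left Complex.I_ne_zero, mul_zero]

variable [ConnectedSpace X]

/-- **An irreducible curve `C` with `K·C < 0` is a smooth rational curve with `C·C = -1`.** -/
theorem exceptional (hF : FiniteStmt X) (hS : SerreStmt X) (hR : RRStmt X) (hpg : PgZero X)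
    (hneg : NegDef X) {C : EffDiv X} (hC : H823.Prime C) (A : H451.DivLB C ι) (LK : LB X ι')
    (hK : IsCanon LK) (h : (isec A.L LK).re < 0) : C.IsSmoothRational ∧ C.SelfInt (-1) := by
  have hdual : A.L.dual.IsHol (-A.a) := A.hol.dual
  have hne : isec A.L LK ≠ 0 := fun h0 => by
    rw [h0] at h
    simp at h
  have hq := isec_neg hneg A.L LK hne
  have r1 := hR ι ι' A.L A.a LK A.hol hK
  have r2 := hR ι ι' A.L.dual (-A.a) LK hdual hK
  rw [isec_dual_dual, isec_dual_left] at r2
  set q := isec A.L A.L with hq'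
  set κ := isec A.L LK with hκ'
  set x : ℤ := chi A.L A.a 0 - chi (OX X) 0 0 with hx
  set y : ℤ := chi A.L.dual (-A.a) 0 - chi (OX X) 0 0 with hy
  have hqxy : q = ((x + y : ℤ) : ℂ) := by
    rw [hx, hy]
    push_cast
    rw [r1, r2]
    ring
  have hκxy : κ = ((y - x : ℤ) : ℂ) := by
    rw [hx, hy]
    push_cast
    rw [r1, r2]
    ring
  have h1 : x + y < 0 := by
    rw [hqxy, Complex.intCast_re] at hq
    exact_mod_cast hq
  have h2 : y - x < 0 := by
    rw [hκxy] at h
    rw [Complex.intCast_re] at h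
    exact_mod_cast h
  have h3 : chi A.L.dual (-A.a) 0 < chi (OX X) 0 0 := by omega
  obtain ⟨h4, h5⟩ := prime_rational hF hS hpg hC A hdual h3
  refine ⟨h5, selfInt_of_isec A ?_⟩
  have h6 : x + y = -1 := by omega
  rw [← hq', hqxy, h6]
  simp

/-- **`K` is nef.** -/
theorem nef (hF : FiniteStmt X) (hS : SerreStmt X) (hR : RRStmt X) (hpg : PgZero X)
    (hneg : NegDef X) (hmin : Minimal X) (L : LB X ι) (a : X → Fin 2 → ℂ) (LK : LB X ι')
    (ha : L.IsHol a) (hK : IsCanon LK) (s : X → EuclideanSpace ℂ ι) (hs : s ∈ H0 L a 0)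
    (hs0 : s ≠ 0) : 0 ≤ (isec L LK).re := by
  by_contra hlt
  push Not at hlt
  obtain ⟨⟨hreg, hsec⟩, hdb⟩ := (mem_H0 _ _ _).1 hs
  have hdb' : ∀ x, L.db0 a 0 s x = 0 := fun x => congrFun hdb x
  have hne : ∃ x, s x ≠ 0 := by
    by_contra hcon
    push Not at hcon
    exact hs0 (funext hcon)
  have hsect := H821.isSection_of_connected ha hreg hsec hdb' hne
  have hd : Dense {x | s x ≠ 0} := by
    rw [dense_iff_inter_open]
    intro V hV hVn
    obtain ⟨x, hx, hx'⟩ := hsect.nz V hV hVn
    exact ⟨x, hx, hx'⟩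
  obtain ⟨n, C, m, k, A, hp, hsum⟩ := isec_components ha hreg hsec
    (fun x i => congrFun (hdb' x) i) hd
  rw [hsum ι' LK, Complex.re_sum] at hlt
  obtain ⟨c, -, hc⟩ := Finset.exists_lt_of_sum_lt (s := Finset.univ) (f := fun c =>
    ((m c : ℂ) * isec (A c).L LK).re) (g := fun _ => (0 : ℝ)) (by simpa using hlt)
  have hc' : (m c : ℝ) * (isec (A c).L LK).re < 0 := by
    have : ((m c : ℂ) * isec (A c).L LK).re = (m c : ℝ) * (isec (A c).L LK).re := by
      rw [← Complex.ofReal_natCast, Complex.re_ofReal_mul]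
    rw [← this]
    exact hc
  have hneg' : (isec (A c).L LK).re < 0 := by
    by_contra h4
    have := mul_nonneg (Nat.cast_nonneg (α := ℝ) (m c)) (not_lt.1 h4)
    linarith
  obtain ⟨h1, h2⟩ := exceptional hF hS hR hpg hneg (hp c) (A c) LK hK hneg'
  exact hmin ⟨C c, h1, h2⟩

end compact

end Vale.Agent.P267.H815
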