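import Vale.Agent.P267.H682.RRTriv
import Vale.Agent.P267.H365.Dual
import Vale.Agent.P267.H451.DivDefs

/-!
# P267, package CURV-C6 (helper815): the cohomology of `𝒪_D`

`D` an effective divisor, `(L, a)` its line bundle (`DivLB`). If `H⁰(𝒪_D) = ℂ` (`hconst`) and
`χ(𝒪) - χ(𝒪(-D)) ≥ 1`, then `χ(𝒪) - χ(𝒪(-D)) = 1` and `H¹(𝒪_D) = 0`.
-/

open scoped Manifold ContDiff ComplexConjugate Matrix Topology
open Set Filter

noncomputable section

namespace Vale.Agent.P267.H815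

open Vale.Agent.P267.FL Vale.Agent.P267.H682
open Vale.Agent.P267.RR (A0 A1 A2 D0 D1 H0 Z1 B1 B2 H1 H2 mem_A0 mem_A1 mem_A2 mem_H0 mem_Z1 mem_B1
  mem_B2 h0 h1 h2 chi OX isec IsCanon FiniteStmt SerreStmt RRStmt NoetherStmt reg0_zero reg1_zero
  reg2_zero)

variable {X : Type} [TopologicalSpace X] [ChartedSpace C2 X] [IsManifold 𝓘(ℂ, C2) ω X]
variable {ι : Type} [Fintype ι] [DecidableEq ι] {D : EffDiv X}

section cone

variable (A : H451.DivLB D ι)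

/-- the map `H¹(𝒪(-D)) → H¹(𝒪)` on closed forms -/
def toOX1 : Z1 A.L.dual (-A.a) 0 →ₗ[ℂ] Z1 (OX X) 0 0 where
  toFun w := ⟨fun x i => up (H365.pair1 A w.1 x i), by
    obtain ⟨h1, h2⟩ := (mem_Z1 _ _ _).1 w.2
    have h3 := H365.pair1_mem A 0 (w := w.1) h1
    refine (mem_Z1 _ _ _).2 ⟨⟨reg1_clm up h3.1, sec1_OX _⟩, ?_⟩
    rw [db1_OX]
    funext x
    rw [dbar1_clm up ((h3.1.at x).of_le (by simp)), H365.dbar1_pair A 0 h1, h2]
    simp [H365.pair0, H365.pr]⟩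
  map_add' w w' := by
    refine Subtype.ext ?_
    funext x i
    have := congrFun (congrFun (H365.pair1_add A w.1 w'.1) x) i
    simp only [Submodule.coe_add, Pi.add_apply] at this ⊢
    rw [this, map_add]
  map_smul' c w := by
    refine Subtype.ext ?_
    funext x i
    have := congrFun (congrFun (H365.pair1_smul A c w.1) x) i
    simp only [SetLike.val_smul, Pi.smul_apply, RingHom.id_apply] at this ⊢
    rw [this, map_smul]

theorem toOX1_apply (w : Z1 A.L.dual (-A.a) 0) (x : X) (i : Fin 2) :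
    (toOX1 A w : X → Fin 2 → EuclideanSpace ℂ (Fin 1)) x i = up (H365.pair1 A w.1 x i) := rfl

/-- exact forms go to exact forms -/
theorem toOX1_B1 : (B1 A.L.dual (-A.a) 0).comap (Z1 A.L.dual (-A.a) 0).subtype ≤
    ((B1 (OX X) 0 0).comap (Z1 (OX X) 0 0).subtype).comap (toOX1 A) := by
  intro w hw
  obtain ⟨s, hs, hw'⟩ := (mem_B1 _ _ _).1 hw
  refine (mem_B1 _ _ _).2 ⟨fun x => up (H365.pair0 A s x), ⟨reg0_clm up
    (H365.pair0_mem A 0 hs).1, sec_OX _⟩, ?_⟩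
  rw [db0_OX]
  funext x i
  rw [dbar0_clm up (((H365.pair0_mem A 0 hs).1.at x).of_le (by simp)), H365.dbar0_pair A 0 hs, hw']
  rfl

/-- the map `H¹(𝒪(-D)) → H¹(𝒪)` -/
def hmap : H1 A.L.dual (-A.a) 0 →ₗ[ℂ] H1 (OX X) 0 0 :=
  Submodule.mapQ _ _ (toOX1 A) (toOX1_B1 A)

theorem hmap_mk (w : Z1 A.L.dual (-A.a) 0) :
    hmap A (Submodule.Quotient.mk w) = Submodule.Quotient.mk (toOX1 A w) := rfl

/-- it is injective if `H⁰(𝒪_D) = ℂ` -/
theorem hmap_injective (hconst : ∀ φ : X → ℂ, Reg0 ∞ 0 φ → dbar0 0 φ ∈ H365.I1 D 0 →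
    ∃ c : ℂ, (fun x => φ x - c) ∈ H365.I0 D 0) : Function.Injective (hmap A) := by
  rw [injective_iff_map_eq_zero]
  intro q
  refine Submodule.Quotient.induction_on _ q ?_
  intro w hw
  rw [hmap_mk, Submodule.Quotient.mk_eq_zero] at hw
  obtain ⟨s, ⟨hs, -⟩, hsw⟩ := (mem_B1 _ _ _).1 hw
  rw [db0_OX] at hsw
  obtain ⟨hw1, hw2⟩ := (mem_Z1 _ _ _).1 w.2
  set φ : X → ℂ := fun x => dw (s x) with hφ
  have hφr : Reg0 ∞ 0 φ := reg0_clm dw hs
  have hφd : dbar0 0 φ = H365.pair1 A w.1 := by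
    funext x i
    rw [hφ, dbar0_clm dw ((hs.at x).of_le (by simp)), hsw]
    rfl
  obtain ⟨c, hc⟩ := hconst φ hφr (by rw [hφd]; exact H365.pair1_mem A 0 hw1)
  obtain ⟨u, hu, huc⟩ := H365.pair0_surj A 0 hc
  rw [Submodule.Quotient.mk_eq_zero]
  refine (mem_B1 _ _ _).2 ⟨u, hu, ?_⟩
  have hcr : Reg0 ∞ 0 (fun _ : X => c) := by
    have h1 : ∀ e : Ch X, loc0 0 e (fun _ : X => c) = fun _ => c := fun e => by
      funext z
      simp [loc0]
    intro e _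
    rw [h1]
    exact contDiffOn_const
  have hcd : dbar0 0 (fun _ : X => c) = 0 := by
    have h1 : ∀ e : Ch X, loc0 0 e (fun _ : X => c) = fun _ => c := fun e => by
      funext z
      simp [loc0]
    funext x i
    rw [dbar0, h1, dzb]
    simp
  have h1 : dbar0 0 (fun x => φ x - c) = H365.pair1 A w.1 := by
    funext x i
    rw [dbar0_sub ((hφr.at x).of_le (by simp)) ((hcr.at x).of_le (by simp)), hφd, hcd]
    simp
  rw [← huc, H365.dbar0_pair A 0 hu] at h1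
  have h2 : (A.L.dual.db0 (-A.a) 0 u) ∈ A1 A.L.dual 0 := by
    refine ⟨?_, ?_⟩
    · exact A.L.dual.reg1_db0 (by
        have := RR.Reg1.smul (-1 : ℂ) A.hol.1
        simpa using this) hu.1
    · exact LB.Sec.db0 _ hu.2
  have h3 := H365.pair1_inj A 0 (w := A.L.dual.db0 (-A.a) 0 u - w.1) (Submodule.sub_mem _ h2 hw1) (by
    have : H365.pair1 A (A.L.dual.db0 (-A.a) 0 u - w.1) =
        H365.pair1 A (A.L.dual.db0 (-A.a) 0 u) - H365.pair1 A w.1 := by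
      funext x i
      exact H365.pr_sub_left _ _ _
    rw [this, h1, sub_self])
  exact sub_eq_zero.1 h3

/-- **Cone.** -/
theorem cone (hF : FiniteStmt X) (hS : SerreStmt X) (hpg : PgZero X) [CompactSpace X]
    [ConnectedSpace X] (hdual : A.L.dual.IsHol (-A.a))
    (hconst : ∀ φ : X → ℂ, Reg0 ∞ 0 φ → dbar0 0 φ ∈ H365.I1 D 0 →
      ∃ c : ℂ, (fun x => φ x - c) ∈ H365.I0 D 0)
    (hchi : chi A.L.dual (-A.a) 0 < chi (OX X) 0 0) :
    chi (OX X) 0 0 = chi A.L.dual (-A.a) 0 + 1 ∧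
    ∀ b : X → Fin 2 → ℂ, Reg1 ∞ 0 b → dbar1 0 b ∈ H365.I2 D 0 →
      ∃ t : X → ℂ, Reg0 ∞ 0 t ∧ (fun x i => b x i - dbar0 0 t x i) ∈ H365.I1 D 0 := by
  have f1 : FiniteDimensional ℂ (H1 (OX X) 0 0) := (hF (Fin 1) (OX X) 0 isHol_OX 0).2.1
  obtain ⟨-, f2, f3⟩ := hF ι A.L.dual (-A.a) hdual 0
  have hinj := hmap_injective A hconst
  have hle : h1 A.L.dual (-A.a) 0 ≤ h1 (OX X) 0 0 := LinearMap.finrank_le_finrank_of_injective hinj
  have e0 : h0 (OX X) 0 0 = 1 := h0_OX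
  have e2 : h2 (OX X) 0 0 = 0 := h2_OX hS hpg
  have hcl : h1 A.L.dual (-A.a) 0 = h1 (OX X) 0 0 ∧ h2 A.L.dual (-A.a) 0 = 0 ∧
      h0 A.L.dual (-A.a) 0 = 0 := by
    simp only [chi, e0, e2] at hchi
    omega
  obtain ⟨g1, g2, g0⟩ := hcl
  refine ⟨by simp only [chi, e0, e2, g1, g2, g0]; push_cast; ring, ?_⟩
  have hsurj : Function.Surjective (hmap A) :=
    (LinearMap.injective_iff_surjective_of_finrank_eq_finrank g1).1 hinj
  have hsub : Subsingleton (H2 A.L.dual (-A.a) 0) := Module.finrank_zero_iff.1 g2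
  intro b hb hb2
  -- a divisible `c₁` with `∂̄ c₁ = ∂̄ b`
  obtain ⟨v, hv, hvb⟩ := H365.pair2_surj A 0 hb2
  have h4 : (Submodule.Quotient.mk ⟨v, hv⟩ : H2 A.L.dual (-A.a) 0) = 0 := Subsingleton.elim _ _
  rw [Submodule.Quotient.mk_eq_zero] at h4
  obtain ⟨w, hw, hwv⟩ := (mem_B2 _ _ _).1 h4
  have hwv' : A.L.dual.db1 (-A.a) 0 w = v := hwv
  have hc1 := H365.pair1_mem A 0 hw
  have hc2 : dbar1 0 (H365.pair1 A w) = dbar1 0 b := by
    rw [H365.dbar1_pair A 0 hw, hwv', hvb]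
  -- the closed form `b - c₁`
  have hz : (fun x i => up (b x i - H365.pair1 A w x i)) ∈ Z1 (OX X) 0 0 := by
    have hr : Reg1 ∞ 0 fun x i => b x i - H365.pair1 A w x i :=
      reg1_iff_at.2 fun x => (hb.at x).sub (hc1.1.at x)
    refine (mem_Z1 _ _ _).2 ⟨⟨reg1_clm up hr, sec1_OX _⟩, ?_⟩
    rw [db1_OX]
    funext x
    rw [dbar1_clm up ((hr.at x).of_le (by simp))]
    change up (dbar1 0 (fun y => b y - H365.pair1 A w y) x) = 0
    rw [dbar1_sub ((hb.at x).of_le (by simp)) ((hc1.1.at x).of_le (by simp)), hc2]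
    simp
  obtain ⟨q, hq⟩ := hsurj (Submodule.Quotient.mk ⟨_, hz⟩)
  obtain ⟨w', rfl⟩ := Submodule.Quotient.mk_surjective _ q
  rw [hmap_mk, eq_comm, Submodule.Quotient.eq] at hq
  obtain ⟨s, ⟨hs, -⟩, hsw⟩ := (mem_B1 _ _ _).1 hq
  rw [db0_OX] at hsw
  obtain ⟨hw1, -⟩ := (mem_Z1 _ _ _).1 w'.2
  refine ⟨fun x => dw (s x), reg0_clm dw hs, ?_⟩
  have h5 : (fun x i => b x i - dbar0 0 (fun x => dw (s x)) x i) =
      H365.pair1 A w + H365.pair1 A w'.1 := by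
    funext x i
    rw [dbar0_clm dw ((hs.at x).of_le (by simp)), hsw]
    simp only [Submodule.subtype_apply, Pi.sub_apply, toOX1_apply, map_sub, dw_up, Pi.add_apply]
    ring
  rw [h5]
  exact Submodule.add_mem _ hc1 (H365.pair1_mem A 0 hw1)

end cone

end Vale.Agent.P267.H815
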