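import Vale.Agent.P267.H815.H0

/-!
# P267, D4: functions of one holomorphic coordinate (helper815)
-/

open scoped Manifold ContDiff Topology ComplexConjugate
open Set Filter Metric
open Vale.Agent.P272.K

set_option linter.unusedSectionVars false

noncomputable section

namespace Vale.Agent.P267.H815

open FL (At0 At1 At2 Reg0 Reg1 Reg2 dbar0 dbar1 loc0 loc1 loc2 C2)

/-- `∂k/∂s̄` -/
def db (k : ℂ → ℂ) (s : ℂ) : ℂ :=
  (1 / 2 : ℂ) * (fderiv ℝ k s 1 + Complex.I * fderiv ℝ k s Complex.I)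

theorem db_congr {k l : ℂ → ℂ} {s : ℂ} (h : k =ᶠ[𝓝 s] l) : db k s = db l s := by
  rw [db, db, h.fderiv_eq]

theorem db_const (c s : ℂ) : db (fun _ => c) s = 0 := by
  simp [db]

theorem db_conj (s : ℂ) : db (fun t => conj t) s = 1 := by
  have h : fderiv ℝ (fun t : ℂ => conj t) s = (Complex.conjCLE : ℂ →L[ℝ] ℂ) :=
    (Complex.conjCLE : ℂ →L[ℝ] ℂ).hasFDerivAt.fderiv
  rw [db, h]
  simp only [ContinuousLinearEquiv.coe_coe, Complex.conjCLE_apply, map_one, Complex.conj_I]
  have := Complex.I_mul_I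
  linear_combination (-1 / 2 : ℂ) * this

theorem db_mul_hol {k g : ℂ → ℂ} {s : ℂ} (hk : DifferentiableAt ℝ k s)
    (hg : DifferentiableAt ℂ g s) : db (fun t => k t * g t) s = db k s * g s := by
  have hg' : DifferentiableAt ℝ g s := hg.restrictScalars ℝ
  have h1 : fderiv ℝ g s = (fderiv ℂ g s).restrictScalars ℝ :=
    (hg.hasFDerivAt.restrictScalars ℝ).fderiv
  have h2 : fderiv ℂ g s Complex.I = Complex.I * fderiv ℂ g s 1 := by
    have := (fderiv ℂ g s).map_smul Complex.I 1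
    simpa using this
  rw [db, db, fderiv_fun_mul hk hg', h1]
  simp only [_root_.add_apply, _root_.smul_apply, smul_eq_mul,
    ContinuousLinearMap.coe_restrictScalars', h2]
  have := Complex.I_mul_I
  linear_combination (1 / 2 : ℂ) * k s * (fderiv ℂ g s) 1 * this

theorem contDiffAt_db {k : ℂ → ℂ} {s : ℂ} (hk : ContDiffAt ℝ ∞ k s) : ContDiffAt ℝ ∞ (db k) s := by
  have h1 : ContDiffAt ℝ ∞ (fderiv ℝ k) s := hk.fderiv_right (by simp)
  have h2 : ∀ v : ℂ, ContDiffAt ℝ ∞ (fun s => fderiv ℝ k s v) s := fun v =>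
    h1.clm_apply contDiffAt_const
  exact contDiffAt_const.mul ((h2 1).add (contDiffAt_const.mul (h2 Complex.I)))

theorem dzb_comp_one {k : ℂ → ℂ} {h : C2 → ℂ} {z : C2} (hk : DifferentiableAt ℝ k (h z))
    (hh : DifferentiableAt ℂ h z) (i : Fin 2) :
    FL.dzb i (fun y => k (h y)) z = db k (h z) * conj (fderiv ℂ h z (Pi.single i 1)) := by
  have h1 : HasFDerivAt (fun y => k (h y))
      ((fderiv ℝ k (h z)).comp ((fderiv ℂ h z).restrictScalars ℝ)) z :=
    hk.hasFDerivAt.comp z (hh.hasFDerivAt.restrictScalars ℝ)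
  have h2 : (Pi.single i Complex.I : C2) = Complex.I • Pi.single i (1 : ℂ) := by
    rw [← Pi.single_smul]
    simp
  have h3 : ∀ a : ℂ, fderiv ℝ k (h z) a =
      (a.re : ℂ) * fderiv ℝ k (h z) 1 + (a.im : ℂ) * fderiv ℝ k (h z) Complex.I := by
    intro a
    have h4 : a = a.re • (1 : ℂ) + a.im • Complex.I := by
      simp [Complex.re_add_im]
    conv_lhs => rw [h4]
    rw [map_add, map_smul, map_smul, Complex.real_smul, Complex.real_smul]
  rw [FL.dzb, h1.fderiv, h2]
  set a : ℂ := fderiv ℂ h z (Pi.single i 1) with ha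
  have h5 : ((fderiv ℂ h z).restrictScalars ℝ) (Complex.I • Pi.single i (1 : ℂ)) =
      Complex.I * a := by
    rw [ContinuousLinearMap.coe_restrictScalars', map_smul, smul_eq_mul, ← ha]
  have h6 : ((fderiv ℂ h z).restrictScalars ℝ) (Pi.single i (1 : ℂ)) = a := rfl
  rw [ContinuousLinearMap.comp_apply, ContinuousLinearMap.comp_apply, h5, h6, h3 a,
    h3 (Complex.I * a), db]
  have h7 : (Complex.I * a).re = -a.im := by simp
  have h8 : (Complex.I * a).im = a.re := by simp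
  rw [h7, h8]
  have h9 : conj a = (a.re : ℂ) - (a.im : ℂ) * Complex.I := by
    apply Complex.ext <;> simp
  rw [h9]
  simp only [smul_eq_mul, Complex.ofReal_neg]
  have := Complex.I_mul_I
  linear_combination (1 / 2 : ℂ) * (a.im : ℂ) * fderiv ℝ k (h z) Complex.I * this

variable {X : Type*} [TopologicalSpace X] [ChartedSpace (Cm 2) X] [IsManifold 𝓘(ℂ, Cm 2) ω X]

/-- chain rule on the surface, for a function of one holomorphic coordinate -/
theorem dbar0_comp {k : ℂ → ℂ} {h : X → ℂ} {x : X} (hk : DifferentiableAt ℝ k (h x))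
    (hh : HolN h x) (i : Fin 2) :
    dbar0 0 (fun y => k (h y)) x i = db k (h x) * dbar0 0 (fun y => conj (h y)) x i := by
  have h1 : DifferentiableAt ℂ (h ∘ (chartAt C2 x).symm) (chartAt C2 x x) :=
    hh.analyticAt.differentiableAt
  have h2 : (h ∘ (chartAt C2 x).symm) (chartAt C2 x x) = h x := by
    show h ((chartAt C2 x).symm (chartAt C2 x x)) = h x
    rw [(chartAt C2 x).left_inv (mem_chart_source C2 x)]
  have h3 := dzb_comp_one (k := k) (h := h ∘ (chartAt C2 x).symm) (z := chartAt C2 x x)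
    (by rw [h2]; exact hk) h1 i
  have h4 := dzb_comp_one (k := fun t => conj t) (h := h ∘ (chartAt C2 x).symm)
    (z := chartAt C2 x x) (by
      exact (Complex.conjCLE : ℂ →L[ℝ] ℂ).hasFDerivAt.differentiableAt) h1 i
  rw [db_conj, one_mul] at h4
  rw [h2, ← h4] at h3
  show FL.dzb i (loc0 0 (chartAt C2 x) fun y => k (h y)) (chartAt C2 x x) =
    db k (h x) * FL.dzb i (loc0 0 (chartAt C2 x) fun y => conj (h y)) (chartAt C2 x x)
  rw [loc0_zero_eq, loc0_zero_eq]
  exact h3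

theorem at0_comp {k : ℂ → ℂ} {h : X → ℂ} {x : X} (hk : ContDiffAt ℝ ∞ k (h x)) (hh : HolN h x) :
    At0 ∞ 0 (fun y => k (h y)) x := by
  show ContDiffAt ℝ ∞ (loc0 0 (chartAt C2 x) fun y => k (h y)) (chartAt C2 x x)
  rw [loc0_zero_eq]
  have h1 : ContDiffAt ℝ ∞ (h ∘ (chartAt C2 x).symm) (chartAt C2 x x) :=
    (hh.analyticAt.contDiffAt (n := ∞)).restrict_scalars ℝ
  have h2 : (h ∘ (chartAt C2 x).symm) (chartAt C2 x x) = h x := by
    show h ((chartAt C2 x).symm (chartAt C2 x x)) = h x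
    rw [(chartAt C2 x).left_inv (mem_chart_source C2 x)]
  refine ContDiffAt.comp (g := k) (f := h ∘ (chartAt C2 x).symm) _ ?_ h1
  rw [h2]
  exact hk

theorem at1_conj {h : X → ℂ} {x : X} (hh : HolN h x) :
    At1 ∞ 0 (dbar0 0 fun y => conj (h y)) x := by
  have h1 : At0 ∞ 0 (fun y => conj (h y)) x :=
    at0_comp (k := fun t => conj t) (Complex.conjCLE : ℂ →L[ℝ] ℂ).contDiff.contDiffAt hh
  exact FL.At0.dbar h1 FL.infty_add_one_le

end Vale.Agent.P267.H815
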