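import Vale.Agent.P267.H221.Out
import Vale.Agent.P267.H332.Pair.IntAx
import Vale.Agent.P267.H399.LBCurv
import Vale.Agent.P267.H469.Del2
import Vale.Agent.P267.H821.Section

/-!
# P267, package CURV-C6 (helper815): intersection numbers and norm functions

On a compact surface: `L·L' = -(1/4π²) ∫ cF(‖s‖²) ∧ curv L'` for a holomorphic section `s` of
`(L, a)`, and the pairing `∫ cF N ∧ η` with a closed form is additive in products of norm functions
and does not change under `N ↦ N e^ψ`.
-/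

set_option linter.unusedSectionVars false

open scoped Manifold ContDiff ComplexConjugate Matrix Topology
open Set Filter MeasureTheory

noncomputable section

namespace Vale.Agent.P267.H815

open Vale.Agent.P267.FL Vale.Agent.P267.H757 Vale.Agent.P267.H332

variable {X : Type*} [TopologicalSpace X] [ChartedSpace C2 X]
variable {ι : Type} [Fintype ι] [DecidableEq ι] {ι' : Type} [Fintype ι'] [DecidableEq ι']

theorem twoF_ext' {F G : TwoF X} (h1 : ∀ x, F.f20 x = G.f20 x) (h2 : ∀ x, F.f11 x = G.f11 x)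
    (h3 : ∀ x, F.f02 x = G.f02 x) : F = G := by
  cases F
  cases G
  simp only [TwoF.mk.injEq]
  exact ⟨funext h1, funext h2, funext h3⟩

/-- the one-form `a - ā` (after helper466) -/
def conn (a : X → Fin 2 → ℂ) : OneF X := ⟨fun y i => -conj (a y i), a⟩

theorem chern_eq_add (L : LB X ι) (a : X → Fin 2 → ℂ) : L.chern a = L.curv + (conn a).d :=
  twoF_ext' (fun _ => rfl) (fun _ => rfl) fun _ => rfl

theorem wedge_add_left (F G η : TwoF X) (x : X) :
    (F + G).wedge η x = F.wedge η x + G.wedge η x := by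
  simp only [TwoF.wedge, TwoF.f20_add, TwoF.f11_add, TwoF.f02_add, Pi.add_apply,
    Matrix.add_apply]
  ring

variable [IsManifold 𝓘(ℂ, C2) ω X]

theorem conn_smooth {a : X → Fin 2 → ℂ} (ha : Reg1 ∞ 0 a) : (conn a).Smooth := by
  refine ⟨?_, ha⟩
  have h := H469.r1cj ha
  have : (fun y i => -conj (a y i)) = (-1 : ℂ) • H469.cj1 a := by
    funext y i
    simp [H469.cj1]
  show Reg10 ∞ (fun y i => -conj (a y i))
  rw [this]
  intro e he
  have h2 := h e he
  have h3 : loc10 e ((-1 : ℂ) • H469.cj1 a) = fun z => (-1 : ℂ) • loc10 e (H469.cj1 a) z := by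
    funext z i
    exact H469.loc10_smul e z (-1) _ i
  rw [h3]
  exact h2.const_smul (-1 : ℂ)

theorem d_smooth {A : OneF X} (hA : A.Smooth) : A.d.Smooth := by
  refine ⟨H469.reg_del10 hA.s10, ?_, H469.reg_dbar1 hA.s01⟩
  have e1 := H469.reg_del1 hA.s01
  have e2 := H469.reg_dbar10 hA.s10
  intro e he i j
  have : (fun z => loc11 e A.d.f11 z i j) =
      fun z => loc11 e (del1 A.f01) z i j + loc11 e (dbar10 A.f10) z i j := by
    funext z
    exact H469.loc11_add e z _ _ i j
  rw [this]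
  exact (e1 e he i j).add (e2 e he i j)

section compact

variable [CompactSpace X] [T2Space X]

theorem hcs (b : X → ℂ) : HasCompactSupport b :=
  IsCompact.of_isClosed_subset isCompact_univ (isClosed_tsupport b) (subset_univ _)

theorem stokes {A : OneF X} {η : TwoF X} (hA : A.Smooth) (hη : η.Smooth) (hηc : η.Closed) :
    FL.intX (A.d.wedge η) = 0 :=
  intAx.stokes A η hA (IsCompact.of_isClosed_subset isCompact_univ isClosed_closure
    (subset_univ _)) hη hηc

/-- on a compact surface adding an exact form does not change the pairing with closed forms -/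
theorem intX_add_exact {F η : TwoF X} {A : OneF X} (hF : F.Smooth) (hA : A.Smooth)
    (hη : η.Smooth) (hηc : η.Closed) :
    FL.intX ((F + A.d).wedge η) = FL.intX (F.wedge η) := by
  have h1 : (F + A.d).wedge η = fun x => F.wedge η x + A.d.wedge η x :=
    funext fun x => wedge_add_left F A.d η x
  rw [h1, intAx.add _ _ (reg2_wedge hF hη) (reg2_wedge (d_smooth hA) hη) (hcs _) (hcs _),
    stokes hA hη hηc, add_zero]

theorem mem_HC {η : TwoF X} (hη : η.Smooth) (hηc : η.Closed) : η ∈ HC X :=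
  ⟨hη, hηc, IsCompact.of_isClosed_subset isCompact_univ isClosed_closure (subset_univ _)⟩

/-- `∫ cF N ∧ η` -/
def pn (η : TwoF X) (N : X → ℝ) : ℂ := FL.intX ((cF N).wedge η)

theorem pn_mul {η : TwoF X} (hη : η.Smooth) (hηc : η.Closed) {N N' : X → ℝ}
    (hN : IsNormFn C2 N) (hN' : IsNormFn C2 N') :
    pn η (fun x => N x * N' x) = pn η N + pn η N' :=
  pairC_mul intAx hN hN' ⟨η, mem_HC hη hηc⟩

theorem pn_one {η : TwoF X} (hη : η.Smooth) (hηc : η.Closed) :
    pn η (fun _ : X => (1 : ℝ)) = 0 :=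
  pairC_eq_zero intAx isNormFn_one ⟨η, mem_HC hη hηc⟩ fun _ _ => one_pos

theorem pn_exp {η : TwoF X} (hη : η.Smooth) (hηc : η.Closed) {ψ : X → ℝ}
    (hψ : ContMDiff 𝓘(ℝ, C2) 𝓘(ℝ) ∞ ψ) : pn η (fun x => Real.exp (ψ x)) = 0 := by
  have h1 : IsNormFn C2 fun x => Real.exp (ψ x) := by
    have := isNormFn_exp hψ.neg
    simpa using this
  exact pairC_eq_zero intAx h1 ⟨η, mem_HC hη hηc⟩ fun x _ => Real.exp_pos _

theorem pn_pow {η : TwoF X} (hη : η.Smooth) (hηc : η.Closed) {N : X → ℝ}
    (hN : IsNormFn C2 N) (k : ℕ) : pn η (fun x => N x ^ k) = k * pn η N := by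
  induction k with
  | zero => simpa using pn_one hη hηc
  | succ k ih =>
    have h1 : (fun x => N x ^ (k + 1)) = fun x => N x ^ k * N x := by
      funext x
      ring
    rw [h1, pn_mul hη hηc (hN.pow k) hN, ih]
    push_cast
    ring

theorem pn_prod {η : TwoF X} (hη : η.Smooth) (hηc : η.Closed) {κ : Type*} (s : Finset κ)
    {N : κ → X → ℝ} (hN : ∀ i ∈ s, IsNormFn C2 (N i)) :
    pn η (fun x => ∏ i ∈ s, N i x) = ∑ i ∈ s, pn η (N i) := by
  classical
  induction s using Finset.induction_on with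
  | empty => simpa using pn_one hη hηc
  | insert i s hi ih =>
    have h2 : ∀ j ∈ s, IsNormFn C2 (N j) := fun j hj => hN j (Finset.mem_insert_of_mem hj)
    have h1 : (fun x => ∏ j ∈ insert i s, N j x) = fun x => N i x * ∏ j ∈ s, N j x := by
      funext x
      rw [Finset.prod_insert hi]
    rw [h1, Finset.sum_insert hi, pn_mul hη hηc (hN i (Finset.mem_insert_self i s))
      (isNormFn_prod s h2), ih h2]

/-- `L·L' = -(1/4π²) ∫ cF(‖s‖²) ∧ curv L'` -/
theorem isec_eq {L : LB X ι} {a : X → Fin 2 → ℂ} (ha : L.IsHol a) {s : X → EuclideanSpace ℂ ι}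
    (hs : Reg0 ∞ 0 s) (hsec : L.Sec s) (h0 : ∀ x i, L.db0 a 0 s x i = 0)
    (hd : Dense {x | s x ≠ 0}) (L' : LB X ι') :
    RR.isec L L' = -(1 / (4 * (Real.pi : ℂ) ^ 2)) * pn L'.curv fun x => ‖s x‖ ^ 2 := by
  rw [RR.isec, pn, (H821.lbnf ha hs hsec h0 hd).2, chern_eq_add,
    intX_add_exact L.curv_smooth (conn_smooth ha.smooth) L'.curv_smooth L'.curv_closed]

theorem wedge_comm (F G : TwoF X) : F.wedge G = G.wedge F := wedge_comm' F G

theorem chern_smooth {L : LB X ι} {a : X → Fin 2 → ℂ} (ha : L.IsHol a) : (L.chern a).Smooth := by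
  rw [chern_eq_add]
  exact TwoF_smooth_add L.curv_smooth (d_smooth (conn_smooth ha.smooth))

/-- `L·L = -(1/4π²) ∫ chern ∧ chern` -/
theorem intX_chern_chern {L : LB X ι} {a : X → Fin 2 → ℂ} (ha : L.IsHol a)
    {s : X → EuclideanSpace ℂ ι} (hs : Reg0 ∞ 0 s) (hsec : L.Sec s)
    (h0 : ∀ x i, L.db0 a 0 s x i = 0) (hd : Dense {x | s x ≠ 0}) :
    FL.intX ((L.chern a).wedge (L.chern a)) = FL.intX (L.curv.wedge L.curv) := by
  have h1 := H821.lbnf ha hs hsec h0 hd
  have h2 : (L.chern a).Closed := by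
    rw [← h1.2]
    exact cF_closed h1.1
  have e1 : FL.intX ((L.chern a).wedge (L.chern a)) = FL.intX (L.curv.wedge (L.chern a)) := by
    conv_lhs => rw [show (L.chern a).wedge (L.chern a) =
      (L.curv + (conn a).d).wedge (L.chern a) by rw [← chern_eq_add]]
    exact intX_add_exact L.curv_smooth (conn_smooth ha.smooth) (chern_smooth ha) h2
  rw [e1, wedge_comm, chern_eq_add,
    intX_add_exact L.curv_smooth (conn_smooth ha.smooth) L.curv_smooth L.curv_closed]

end compact

end Vale.Agent.P267.H815
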