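import Vale.Agent.P267.H815.OneVar

/-!
# P267, D4: the pole function on a curve with `H¹(𝒪_D) = 0` (helper815)
-/

open scoped Manifold ContDiff Topology ComplexConjugate
open Set Filter Metric
open Vale.Agent.P272.K

set_option linter.unusedSectionVars false

noncomputable section

namespace Vale.Agent.P267.H815

open FL (At0 At1 At2 Reg0 Reg1 Reg2 dbar0 dbar1 loc0 loc1 loc2 C2)

variable {X : Type*} [TopologicalSpace X] [ChartedSpace (Cm 2) X] [IsManifold 𝓘(ℂ, Cm 2) ω X]

/-- holomorphic coordinates near `p` with first coordinate `f` -/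
structure IsCoord (e : OpenPartialHomeomorph X (ℂ × ℂ)) (f : X → ℂ) (p : X) : Prop where
  mem : p ∈ e.source
  zero : e p = (f p, 0)
  fst : ∀ y ∈ e.source, (e y).1 = f y
  hol : ∀ y ∈ e.source, ∀ g : X → ℂ, HolN g y ↔ AnalyticAt ℂ (g ∘ e.symm) (e y)
  sub : e.source ⊆ (chartAt (Cm 2) p).source
  an : ∀ y ∈ e.source, AnalyticAt ℂ (e ∘ (chartAt (Cm 2) p).symm) (chartAt (Cm 2) p y)
  an' : ∀ y ∈ e.source, AnalyticAt ℂ ((chartAt (Cm 2) p) ∘ e.symm) (e y)

theorem IsCoord.holFst {e : OpenPartialHomeomorph X (ℂ × ℂ)} {f : X → ℂ} {p : X}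
    (h : IsCoord e f p) {y : X} (hy : y ∈ e.source) : HolN (fun x => (e x).1) y := by
  rw [h.hol y hy]
  refine (analyticAt_fst (𝕜 := ℂ) (p := e y)).congr ?_
  filter_upwards [e.open_target.mem_nhds (e.map_source hy)] with z hz
  show z.1 = (e (e.symm z)).1
  rw [e.right_inv hz]

theorem IsCoord.holSnd {e : OpenPartialHomeomorph X (ℂ × ℂ)} {f : X → ℂ} {p : X}
    (h : IsCoord e f p) {y : X} (hy : y ∈ e.source) : HolN (fun x => (e x).2) y := by
  rw [h.hol y hy]
  refine (analyticAt_snd (𝕜 := ℂ) (p := e y)).congr ?_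
  filter_upwards [e.open_target.mem_nhds (e.map_source hy)] with z hz
  show z.2 = (e (e.symm z)).2
  rw [e.right_inv hz]

theorem at0_zero' (x : X) : At0 ∞ 0 (fun _ : X => (0 : ℂ)) x := FL.at0_zero

theorem at1_zero' (x : X) : At1 ∞ 0 (fun (_ : X) (_ : Fin 2) => (0 : ℂ)) x := by
  exact FL.at1_zero

theorem dbar1_zero' (x : X) : dbar1 0 (fun (_ : X) (_ : Fin 2) => (0 : ℂ)) x = 0 := by
  have h1 : ∀ i, (fun z => loc1 0 (chartAt C2 x) (fun (_ : X) (_ : Fin 2) => (0 : ℂ)) z i) =
      fun _ => (0 : ℂ) := by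
    intro i
    funext z
    simp [loc1]
  simp only [dbar1]
  rw [h1, h1]
  simp [FL.dzb]

theorem two_le_infty : (2 : WithTop ℕ∞) ≤ ∞ := by
  show ((2 : ℕ∞) : WithTop ℕ∞) ≤ ((⊤ : ℕ∞) : WithTop ℕ∞)
  exact WithTop.coe_le_coe.2 le_top

/-- The pole function. -/
theorem exists_pole [T2Space X] (D : EffDiv X)
    (H1 : ∀ b : X → Fin 2 → ℂ, Reg1 ∞ 0 b → I2 D (dbar1 0 b) →
      ∃ t : X → ℂ, Reg0 ∞ 0 t ∧ I1 D (fun x => b x - dbar0 0 t x))
    {p : X} (hp : p ∈ D.supp \ Sing D) :
    ∃ Φ : X → ℂ, (∀ q ∈ D.supp, q ≠ p → HolZ D.supp Φ q) ∧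
      ∃ e : OpenPartialHomeomorph X (ℂ × ℂ), IsCoord e (D.f p) p ∧ e.source ⊆ D.U p ∧
        ∃ ψ : X → ℂ, HolN ψ p ∧ ∀ᶠ y in 𝓝 p, y ∈ D.supp → Φ y = ((e y).2)⁻¹ + ψ y := by
  classical
  have hp' := (compl_sing_iff D).1 hp
  obtain ⟨e, e1, e2, e3, e4, e5, e6, e7, e8⟩ := exists_coordU (D.isOpen p) (D.mem p)
    (holN_f D p (D.mem p)) hp'.2
  have he : IsCoord e (D.f p) p := ⟨e1, e2, e3, e4, e6, e7, e8⟩
  have hep : e p = 0 := by rw [e2, hp'.1]; rfl
  obtain ⟨R, hR, hRt⟩ := Metric.nhds_basis_closedBall.mem_iff.1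
    (e.open_target.mem_nhds (e.map_source e1))
  rw [hep] at hRt
  set r : ℝ := R / 2 with hr'
  have hr : 0 < r := by positivity
  have hrt : closedBall (0 : ℂ × ℂ) (2 * r) ⊆ e.target := by
    have : 2 * r = R := by rw [hr']; ring
    rw [this]
    exact hRt
  -- the cut-off function of one variable
  let θ : ContDiffBump (0 : ℂ) := ⟨r, 2 * r, hr, by linarith⟩
  set th : ℂ → ℂ := fun s => (θ s : ℂ) with hth
  have hthc : ContDiff ℝ ∞ th := Complex.ofRealCLM.contDiff.comp θ.contDiff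
  have hth1 : ∀ s : ℂ, ‖s‖ < r → th =ᶠ[𝓝 s] fun _ => 1 := by
    intro s hs
    filter_upwards [isOpen_ball.mem_nhds (mem_ball_zero_iff.2 hs)] with t ht
    show ((θ t : ℝ) : ℂ) = 1
    rw [θ.one_of_mem_closedBall (ball_subset_closedBall ht)]
    simp
  have hth0 : ∀ s : ℂ, 2 * r < ‖s‖ → th =ᶠ[𝓝 s] fun _ => 0 := by
    intro s hs
    filter_upwards [(isOpen_lt continuous_const continuous_norm).mem_nhds hs] with t ht
    show ((θ t : ℝ) : ℂ) = 0
    rw [θ.zero_of_le_dist (by rw [dist_zero_right]; exact le_of_lt ht)]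
    simp
  have hdb1 : ∀ s : ℂ, ‖s‖ < r → db th s = 0 := fun s hs => by
    rw [db_congr (hth1 s hs), db_const]
  have hdb0 : ∀ s : ℂ, 2 * r < ‖s‖ → db th s = 0 := fun s hs => by
    rw [db_congr (hth0 s hs), db_const]
  set k : ℂ → ℂ := fun s => th s * s⁻¹ with hk
  set qf : ℂ → ℂ := fun s => db th s * s⁻¹ with hqf
  have hkc : ∀ s : ℂ, s ≠ 0 → ContDiffAt ℝ ∞ k s := fun s hs =>
    hthc.contDiffAt.mul ((contDiffAt_inv ℂ hs).restrict_scalars ℝ)
  have hqc : ∀ s : ℂ, ContDiffAt ℝ ∞ qf s := by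
    intro s
    by_cases hs : s = 0
    · have h1 : qf =ᶠ[𝓝 s] fun _ => 0 := by
        filter_upwards [isOpen_ball.mem_nhds (show s ∈ ball (0 : ℂ) r by
          rw [hs]; exact mem_ball_self hr)] with t ht
        show db th t * t⁻¹ = 0
        rw [hdb1 t (mem_ball_zero_iff.1 ht), zero_mul]
      exact contDiffAt_const.congr_of_eventuallyEq h1
    · exact (contDiffAt_db hthc.contDiffAt).mul ((contDiffAt_inv ℂ hs).restrict_scalars ℝ)
  have hdbk : ∀ s : ℂ, s ≠ 0 → db k s = qf s := by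
    intro s hs
    rw [hk, db_mul_hol (hthc.differentiable (by simp) s) (differentiableAt_inv hs)]
  -- the global objects
  set om : X → Fin 2 → ℂ := dbar0 0 fun y => conj (e y).2 with hom
  set P : X → ℂ := fun x => if x ∈ e.source then th (e x).1 * k (e x).2 else 0 with hP
  set b : X → Fin 2 → ℂ := fun x i =>
    if x ∈ e.source then (th (e x).1 * qf (e x).2) * om x i else 0 with hb
  set K : Set X := e.symm '' closedBall 0 (2 * r) with hK
  have hKc : IsClosed K := ((isCompact_closedBall (0 : ℂ × ℂ) (2 * r)).image_of_continuousOn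
    (e.continuousOn_symm.mono hrt)).isClosed
  have hKs : K ⊆ e.source := by
    rintro _ ⟨z, hz, rfl⟩
    exact e.map_target (hrt hz)
  have hoff : ∀ y ∉ K, P y = 0 ∧ ∀ i, b y i = 0 := by
    intro y hy
    by_cases hys : y ∈ e.source
    · have h1 : e y ∉ closedBall (0 : ℂ × ℂ) (2 * r) := fun h => hy ⟨e y, h, e.left_inv hys⟩
      rw [mem_closedBall_zero_iff, Prod.norm_def, not_le, lt_max_iff] at h1
      simp only [hP, hb, if_pos hys]
      rcases h1 with h1 | h1
      · have h2 : th (e y).1 = 0 := (hth0 _ h1).self_of_nhds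
        simp [h2]
      · have h2 : k (e y).2 = 0 := by
          show th (e y).2 * _ = 0
          rw [(hth0 _ h1).self_of_nhds, zero_mul]
        have h3 : qf (e y).2 = 0 := by
          show db th (e y).2 * _ = 0
          rw [hdb0 _ h1, zero_mul]
        simp [h2, h3]
    · simp [hP, hb, hys]
  have hbreg : Reg1 ∞ 0 b := by
    rw [FL.reg1_iff_at]
    intro x
    by_cases hxs : x ∈ e.source
    · have h1 : At0 ∞ 0 (fun y => th (e y).1 * qf (e y).2) x :=
        FL.At0.mul (at0_comp (k := th) hthc.contDiffAt (he.holFst hxs))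
          (at0_comp (k := qf) (hqc _) (he.holSnd hxs))
      refine FL.At1.congr (FL.At1.smul h1 (at1_conj (he.holSnd hxs))) ?_
      filter_upwards [e.open_source.mem_nhds hxs] with y hy
      funext i
      simp [hb, hy, om]
    · refine (at1_zero' x).congr ?_
      filter_upwards [hKc.isOpen_compl.mem_nhds (fun h => hxs (hKs h))] with y hy
      funext i
      exact (hoff y hy).2 i
  -- near the points of the curve other than `p`
  have hPb : ∀ x ∈ D.supp, x ≠ p → ∀ᶠ y in 𝓝 x, At0 ∞ 0 P y ∧ dbar0 0 P y = b y := by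
    intro x hx hxp
    by_cases hxs : x ∈ e.source
    · have hx1 : (e x).1 = 0 := by
        rw [e3 x hxs]
        exact (mem_supp_iff D (e5 hxs)).1 hx
      have hx2 : (e x).2 ≠ 0 := by
        intro h0
        apply hxp
        have h1 : e x = e p := by
          rw [hep]
          exact Prod.ext hx1 h0
        exact e.injOn hxs e1 h1
      have hcont : ContinuousAt e x := e.continuousAt hxs
      have h1 : ∀ᶠ y in 𝓝 x, ‖(e y).1‖ < r := by
        have := (continuous_fst.continuousAt.comp hcont).norm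
        refine this.eventually_lt_const ?_
        show ‖(e x).1‖ < r
        rw [hx1, norm_zero]
        exact hr
      have h2 : ∀ᶠ y in 𝓝 x, (e y).2 ≠ 0 :=
        (continuous_snd.continuousAt.comp hcont).eventually_ne hx2
      have h3 : ∀ᶠ y in 𝓝 x, P =ᶠ[𝓝 y] fun w => k (e w).2 := by
        refine Filter.Eventually.eventually_nhds ?_
        filter_upwards [h1, e.open_source.mem_nhds hxs] with y hy hys
        simp only [hP, if_pos hys]
        rw [(hth1 _ hy).self_of_nhds, one_mul]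
      filter_upwards [h1, h2, h3, e.open_source.mem_nhds hxs] with y hy1 hy2 hy3 hys
      refine ⟨(at0_comp (k := k) (h := fun w => (e w).2) (hkc _ hy2) (he.holSnd hys)).congr hy3, ?_⟩
      rw [FL.dbar0_congr hy3]
      funext i
      rw [dbar0_comp (k := k) (h := fun w => (e w).2) ((hkc _ hy2).differentiableAt (by simp))
        (he.holSnd hys), hdbk _ hy2]
      simp only [hb, if_pos hys]
      rw [(hth1 _ hy1).self_of_nhds, one_mul]
    · have h1 : ∀ᶠ y in 𝓝 x, P =ᶠ[𝓝 y] fun _ => 0 := by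
        refine Filter.Eventually.eventually_nhds ?_
        filter_upwards [hKc.isOpen_compl.mem_nhds (fun h => hxs (hKs h))] with y hy
        exact (hoff y hy).1
      filter_upwards [h1, hKc.isOpen_compl.mem_nhds (fun h => hxs (hKs h))] with y hy hyK
      refine ⟨(at0_zero' y).congr hy, ?_⟩
      rw [FL.dbar0_congr hy]
      funext i
      rw [(hoff y hyK).2 i]
      show FL.dzb i (loc0 0 (chartAt C2 y) fun _ => (0 : ℂ)) (chartAt C2 y y) = 0
      rw [FL.loc0_zero_fun]
      simp [FL.dzb]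
  -- near `p`
  have hbp : ∀ᶠ y in 𝓝 p, b y = 0 := by
    have h1 : ∀ᶠ y in 𝓝 p, ‖(e y).2‖ < r := by
      have := (continuous_snd.continuousAt.comp (e.continuousAt e1)).norm
      refine this.eventually_lt_const ?_
      show ‖(e p).2‖ < r
      rw [hep]
      simpa using hr
    filter_upwards [h1, e.open_source.mem_nhds e1] with y hy hys
    funext i
    simp only [hb, if_pos hys]
    have h3 : qf (e y).2 = 0 := by
      show db th (e y).2 * _ = 0
      rw [hdb1 _ hy, zero_mul]
    simp [h3]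
  have hdb : I2 D (dbar1 0 b) := by
    intro x
    by_cases hx : x ∈ D.supp
    · refine ⟨fun _ => 0, ?_⟩
      have key : ∀ᶠ y in 𝓝 x, dbar1 0 b y = 0 := by
        by_cases hxp : x = p
        · subst hxp
          filter_upwards [hbp.eventually_nhds] with y hy
          have h1 : b =ᶠ[𝓝 y] fun _ _ => 0 := by
            filter_upwards [hy] with w hw
            rw [hw]
            rfl
          rw [FL.dbar1_congr h1, dbar1_zero']
        · filter_upwards [(hPb x hx hxp).eventually_nhds] with y hy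
          have h1 : b =ᶠ[𝓝 y] dbar0 0 P := by
            filter_upwards [hy] with w hw using hw.2.symm
          rw [FL.dbar1_congr h1]
          refine FL.dbar1_dbar0 ?_
          exact hy.self_of_nhds.1.of_le two_le_infty
      filter_upwards [key] with y hy
      exact ⟨FL.at2_zero, by rw [hy, mul_zero]⟩
    · have h0 : D.f x x ≠ 0 := hx
      refine ⟨fun y => (D.f x y)⁻¹ * dbar1 0 b y, ?_⟩
      have h1 : HolN (D.f x) x := holN_f D x (D.mem x)
      filter_upwards [h1.eventually, h1.continuousAt.eventually_ne h0] with y hy1 hy2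
      refine ⟨?_, by rw [← mul_assoc, mul_inv_cancel₀ hy2, one_mul]⟩
      exact FL.At2.smul ((hy1.inv hy2).at0) ((hbreg.at y).dbar FL.infty_add_one_le)
  obtain ⟨t, ht, htI⟩ := H1 b hbreg hdb
  refine ⟨fun x => P x - t x, ?_, e, he, e5, ?_⟩
  · intro q hq hqp
    obtain ⟨a, ha⟩ := htI q
    obtain ⟨ψ, β, hψ, hβ⟩ := exists_split (φ := fun x => P x - t x) (holN_f D q (D.mem q)) (by
      filter_upwards [mem_nhds D q] with y hy using D.ne q y hy) (by
      filter_upwards [hPb q hq hqp] with y hy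
      exact FL.At0.sub hy.1 (ht.at y)) (by
      filter_upwards [ha, hPb q hq hqp] with y hy hy2
      refine ⟨hy.1, ?_⟩
      rw [← hy.2]
      have h1 := FL.dbar0_sub (κ := 0) (s := P) (t := t) (x := y)
        (hy2.1.of_le (by exact_mod_cast (le_top : (1 : ℕ∞) ≤ ⊤)))
        ((ht.at y).of_le (by exact_mod_cast (le_top : (1 : ℕ∞) ≤ ⊤)))
      rw [h1, hy2.2])
    refine ⟨ψ, hψ, ?_⟩
    filter_upwards [hβ, mem_nhds D q] with y hy hyU hys
    rw [hy.2, (mem_supp_iff D hyU).1 hys, zero_mul, add_zero]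
  · obtain ⟨a, ha⟩ := htI p
    obtain ⟨ψ, β, hψ, hβ⟩ := exists_split (φ := t) (a := fun y => -a y)
      (holN_f D p (D.mem p)) (by
      filter_upwards [mem_nhds D p] with y hy using D.ne p y hy)
      (Eventually.of_forall fun y => ht.at y) (by
      filter_upwards [ha, hbp] with y hy hy2
      refine ⟨FL.At1.neg hy.1, ?_⟩
      have h1 := hy.2
      rw [hy2, zero_sub] at h1
      rw [smul_neg, ← h1, neg_neg])
    refine ⟨fun y => -ψ y, hψ.neg, ?_⟩
    have h1 : ∀ᶠ y in 𝓝 p, ‖e y‖ < r := by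
      have := (e.continuousAt e1).norm
      refine this.eventually_lt_const ?_
      show ‖e p‖ < r
      rw [hep]
      simpa using hr
    filter_upwards [hβ, mem_nhds D p, h1, e.open_source.mem_nhds e1] with y hy hyU hy1 hys hyZ
    rw [Prod.norm_def, max_lt_iff] at hy1
    have h2 : P y = ((e y).2)⁻¹ := by
      simp only [hP, if_pos hys, hk]
      rw [(hth1 _ hy1.1).self_of_nhds, (hth1 _ hy1.2).self_of_nhds, one_mul, one_mul]
    show P y - t y = _
    rw [h2, hy.2, (mem_supp_iff D hyU).1 hyZ, zero_mul, add_zero, sub_eq_add_neg]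

end Vale.Agent.P267.H815
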